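import Vale.Agent.P134.H919.Geo
import Vale.Agent.P134.H147.Base

set_option linter.all false

/-! S-B: the tangential gradient of the tube test function. -/

open MeasureTheory Filter Topology

namespace Vale.Agent.P134.H919

open Vale.Agent.P134 Vale.Agent.P134.SM Vale.Agent.P134.LI
open Vale.Agent.P134.H147 (g1_pos hasDerivAt_g1 g1_le)
open Vale.Agent.P134.H586 (qq_nonneg qq_le_one)

variable {u : R3 → ℝ} {x : R3} {ε κ t : ℝ}

lemma tau_small {ρ ε : ℝ} (hρ : 0 < ρ) (hε : 0 < ε) : ∃ δ0 : ℝ, 0 < δ0 ∧ ∀ q κ : ℝ, 0 ≤ q →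
    q ≤ δ0 → 0 < κ → (Real.log (1 / (ε * (q + κ ^ 2))) / (2 * √2) + 1) * √q ≤ ρ := by
  refine ⟨min (ε * (ρ / 4) ^ 4) ((ρ / 2) ^ 2), by positivity, fun q κ hq hqd hκ => ?_⟩
  have hq1 : q ≤ ε * (ρ / 4) ^ 4 := hqd.trans (min_le_left _ _)
  have hq2 : q ≤ (ρ / 2) ^ 2 := hqd.trans (min_le_right _ _)
  set z : ℝ := ε * (q + κ ^ 2) with hz
  have hz0 : 0 < z := by positivity
  set Y : ℝ := √(√(1 / z)) with hY
  have hY0 : 0 < Y := Real.sqrt_pos.mpr (Real.sqrt_pos.mpr (by positivity))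
  have hY2 : Y ^ 2 = √(1 / z) := Real.sq_sqrt (Real.sqrt_nonneg _)
  have hY4 : Y ^ 4 = 1 / z := by
    have : Y ^ 4 = (Y ^ 2) ^ 2 := by ring
    rw [this, hY2, Real.sq_sqrt (by positivity)]
  have hlog : Real.log (1 / z) ≤ 4 * Y := by
    rw [← hY4, Real.log_pow]
    have := Real.log_le_sub_one_of_pos hY0
    push_cast
    linarith
  have h2 : (1:ℝ) ≤ √2 := by
    rw [show (1:ℝ) = √1 by simp]; exact Real.sqrt_le_sqrt (by norm_num)
  have h3 : Real.log (1 / z) / (2 * √2) ≤ 2 * Y := by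
    rw [div_le_iff₀ (by positivity)]
    nlinarith
  set s := √q with hs
  have hs0 : 0 ≤ s := Real.sqrt_nonneg _
  have hs2 : s ^ 2 = q := Real.sq_sqrt hq
  have h4 : (Y * s) ^ 4 ≤ (ρ / 4) ^ 4 := by
    have : (Y * s) ^ 4 = Y ^ 4 * (s ^ 2) ^ 2 := by ring
    rw [this, hY4, hs2, one_div, inv_mul_le_iff₀ hz0, hz]
    calc q ^ 2 = q * q := by ring
      _ ≤ (ε * (ρ / 4) ^ 4) * (q + κ ^ 2) :=
          mul_le_mul hq1 (by nlinarith) hq (by positivity)
      _ = _ := by ring
  have h5 : Y * s ≤ ρ / 4 :=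
    (pow_le_pow_iff_left₀ (by positivity) (by positivity) (by norm_num)).mp h4
  have h6 : s ≤ ρ / 2 := by
    rw [hs, Real.sqrt_le_left (by positivity)]; exact hq2
  have h7 : (Real.log (1 / z) / (2 * √2) + 1) * s ≤ (2 * Y + 1) * s :=
    mul_le_mul_of_nonneg_right (by linarith) hs0
  nlinarith

/-- `J` and `C` on the tube. -/
lemma tube_close {M ρ : ℝ} (hM : 1 ≤ M) (hρ : 0 ≤ ρ) (hρ1 : ρ ≤ 1)
    (hH : |hh u x| ≤ M * qq u x) (hK : |kk u x| ≤ M * qq u x)
    (hA : ∀ i j, |aa u i j x| ≤ M * √(qq u x)) (hq0 : 0 ≤ qq u x) (hq1 : qq u x ≤ 1)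
    (hn : ∑ i, nn u x i ^ 2 = 1) (ht : |t| * √(qq u x) ≤ ρ) :
    |jj u x t - 1| ≤ 2 * M * ρ ∧
      ∀ i j, |t * (hh u x * pt u i j x - aa u i j x)| ≤ 3 * M * ρ := by
  set s := √(qq u x) with hs
  have hs0 : 0 ≤ s := Real.sqrt_nonneg _
  have hs2 : s ^ 2 = qq u x := Real.sq_sqrt hq0
  have hs1 : s ≤ 1 := by
    rw [hs, Real.sqrt_le_left (by norm_num)]; simpa using hq1
  have ht0 := abs_nonneg t
  have h1 : |t * hh u x| ≤ M * ρ := by
    rw [abs_mul]
    calc |t| * |hh u x| ≤ |t| * (M * qq u x) := mul_le_mul_of_nonneg_left hH ht0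
      _ = M * (|t| * s) * s := by rw [← hs2]; ring
      _ ≤ M * ρ * 1 := mul_le_mul (mul_le_mul_of_nonneg_left ht (by linarith)) hs1 hs0
          (by positivity)
      _ = _ := mul_one _
  have h2 : |t ^ 2 * kk u x| ≤ M * ρ := by
    rw [abs_mul, abs_pow]
    calc |t| ^ 2 * |kk u x| ≤ |t| ^ 2 * (M * qq u x) := mul_le_mul_of_nonneg_left hK (by positivity)
      _ = M * (|t| * s) ^ 2 := by rw [← hs2]; ring
      _ ≤ M * ρ ^ 2 := by
          apply mul_le_mul_of_nonneg_left _ (by linarith)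
          exact pow_le_pow_left₀ (by positivity) ht 2
      _ ≤ M * ρ := by
          apply mul_le_mul_of_nonneg_left _ (by linarith)
          nlinarith
  refine ⟨?_, fun i j => ?_⟩
  · have e : jj u x t - 1 = t * hh u x + t ^ 2 * kk u x := by unfold jj; ring
    rw [e]
    refine (abs_add_le _ _).trans ?_
    linarith
  · have hp : |pt u i j x| ≤ 2 := by
      have hk : ∀ k, |nn u x k| ≤ 1 := by
        intro k
        apply abs_le_of_sq_le_sq _ (by norm_num)
        have h3 : nn u x k ^ 2 ≤ ∑ i, nn u x i ^ 2 :=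
          Finset.single_le_sum (f := fun i => nn u x i ^ 2) (fun _ _ => sq_nonneg _)
            (Finset.mem_univ k)
        rw [hn] at h3; linarith
      unfold pt
      have h4 : |nu (phi u) i x * nu (phi u) j x| ≤ 1 := by
        rw [abs_mul]
        calc _ ≤ 1 * 1 := mul_le_mul (hk i) (hk j) (abs_nonneg _) (by norm_num)
          _ = 1 := by norm_num
      have h5 : |(if i = j then (1:ℝ) else 0)| ≤ 1 := by split_ifs <;> simp
      have h6 := abs_sub (if i = j then (1:ℝ) else 0) (nu (phi u) i x * nu (phi u) j x)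
      linarith
    have e : t * (hh u x * pt u i j x - aa u i j x) = (t * hh u x) * pt u i j x - t * aa u i j x := by
      ring
    rw [e]
    refine (abs_sub _ _).trans ?_
    have h7 : |t * hh u x * pt u i j x| ≤ M * ρ * 2 := by
      rw [abs_mul]; exact mul_le_mul h1 hp (abs_nonneg _) (by positivity)
    have h8 : |t * aa u i j x| ≤ M * ρ := by
      rw [abs_mul]
      calc |t| * |aa u i j x| ≤ |t| * (M * s) := mul_le_mul_of_nonneg_left (hA i j) ht0
        _ = M * (|t| * s) := by ring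
        _ ≤ M * ρ := mul_le_mul_of_nonneg_left ht (by linarith)
    linarith

/-- The matrix `P + E` is close to a contraction. -/
lemma mat_le {n v : R3} {P E : Fin 3 → Fin 3 → ℝ} {b : ℝ} (hb : 0 ≤ b) (hb1 : b ≤ 1)
    (hn : ∑ i, n i ^ 2 = 1) (hP : ∀ i j, P i j = (if i = j then 1 else 0) - n i * n j)
    (hE : ∀ i j, |E i j| ≤ b) :
    ∑ i, (∑ j, (P i j + E i j) * v j) ^ 2 ≤ (1 + 15 * b) * esq v := by
  have hv := esq_nonneg v
  rcases hb.eq_or_lt with h0 | h0
  · -- b = 0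
    have hE0 : ∀ i j, E i j = 0 := fun i j => by
      have := hE i j
      rw [← h0] at this
      exact abs_nonpos_iff.mp this
    rw [← h0]
    simp only [hE0, add_zero, mul_zero, one_mul]
    have e : ∑ i, (∑ j, P i j * v j) ^ 2 = esq v - (∑ i, n i * v i) ^ 2
        + (∑ i, n i * v i) ^ 2 * (∑ i, n i ^ 2 - 1) := by
      unfold esq
      simp only [hP, Fin.sum_univ_three]
      simp
      ring
    rw [e, hn]
    nlinarith [sq_nonneg (∑ i, n i * v i)]
  · have e1 : ∑ i, (∑ j, P i j * v j) ^ 2 ≤ esq v := by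
      have e : ∑ i, (∑ j, P i j * v j) ^ 2 = esq v - (∑ i, n i * v i) ^ 2
          + (∑ i, n i * v i) ^ 2 * (∑ i, n i ^ 2 - 1) := by
        unfold esq
        simp only [hP, Fin.sum_univ_three]
        simp
        ring
      rw [e, hn]
      nlinarith [sq_nonneg (∑ i, n i * v i)]
    have e2 : ∑ i, (∑ j, E i j * v j) ^ 2 ≤ 9 * b ^ 2 * esq v := by
      have : ∀ i ∈ (Finset.univ : Finset (Fin 3)), (∑ j, E i j * v j) ^ 2 ≤ 3 * b ^ 2 * esq v := by
        intro i _
        have h1 := Finset.sum_mul_sq_le_sq_mul_sq Finset.univ (fun j => E i j) v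
        have h2 : ∑ j, E i j ^ 2 ≤ 3 * b ^ 2 := by
          calc ∑ j, E i j ^ 2 ≤ ∑ j : Fin 3, b ^ 2 := by
                refine Finset.sum_le_sum fun j _ => ?_
                rw [← sq_abs]
                exact pow_le_pow_left₀ (abs_nonneg _) (hE i j) 2
            _ = 3 * b ^ 2 := by simp
        exact h1.trans (mul_le_mul_of_nonneg_right h2 hv)
      calc _ ≤ ∑ i : Fin 3, 3 * b ^ 2 * esq v := Finset.sum_le_sum this
        _ = _ := by simp; ring
    have e3 : ∀ i, (∑ j, (P i j + E i j) * v j) ^ 2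
        ≤ (1 + 3 * b) * (∑ j, P i j * v j) ^ 2 + (1 + 1 / (3 * b)) * (∑ j, E i j * v j) ^ 2 := by
      intro i
      have : ∑ j, (P i j + E i j) * v j = ∑ j, P i j * v j + ∑ j, E i j * v j := by
        rw [← Finset.sum_add_distrib]; exact Finset.sum_congr rfl fun j _ => by ring
      rw [this]
      set p := ∑ j, P i j * v j
      set e := ∑ j, E i j * v j
      have h1 : (1 + 3 * b) * p ^ 2 + (1 + 1 / (3 * b)) * e ^ 2 - (p + e) ^ 2
          = (3 * b * p - e) ^ 2 / (3 * b) := by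
        field_simp
        ring
      have h2 : 0 ≤ (3 * b * p - e) ^ 2 / (3 * b) := by positivity
      linarith
    calc ∑ i, (∑ j, (P i j + E i j) * v j) ^ 2
        ≤ ∑ i, ((1 + 3 * b) * (∑ j, P i j * v j) ^ 2 + (1 + 1 / (3 * b)) * (∑ j, E i j * v j) ^ 2) :=
          Finset.sum_le_sum fun i _ => e3 i
      _ = (1 + 3 * b) * (∑ i, (∑ j, P i j * v j) ^ 2)
          + (1 + 1 / (3 * b)) * ∑ i, (∑ j, E i j * v j) ^ 2 := by
          rw [Finset.sum_add_distrib, Finset.mul_sum, Finset.mul_sum]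
      _ ≤ (1 + 3 * b) * esq v + (1 + 1 / (3 * b)) * (9 * b ^ 2 * esq v) :=
          add_le_add (mul_le_mul_of_nonneg_left e1 (by positivity))
            (mul_le_mul_of_nonneg_left e2 (by positivity))
      _ = (1 + 6 * b + 9 * b ^ 2) * esq v := by field_simp; ring
      _ ≤ (1 + 15 * b) * esq v := by
          apply mul_le_mul_of_nonneg_right _ hv
          nlinarith

lemma cc_nn (h : 0 < gs (phi u) x) (i : Fin 3) (t : ℝ) :
    ∑ j, cc u i j x t * nn u x j = 0 := by
  have h1 : ∑ j, nn u x j ^ 2 = 1 := sum_nu_sq h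
  have hp : ∑ j, pt u i j x * nn u x j = 0 := by
    have e : ∑ j, pt u i j x * nn u x j = nn u x i * (1 - ∑ j, nn u x j ^ 2) := by
      unfold pt nn
      fin_cases i <;> simp [Fin.sum_univ_three] <;> ring
    rw [e, h1]; ring
  have ha : ∑ j, aa u i j x * nn u x j = 0 := by
    have e : ∑ j, aa u i j x * nn u x j
        = (∑ k, pd k (nu (phi u) i) x * nu (phi u) k x) * (1 - ∑ j, nn u x j ^ 2) := by
      unfold aa nn
      simp only [Fin.sum_univ_three]
      ring
    rw [e, h1]; ring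
  have e : ∑ j, cc u i j x t * nn u x j
      = (1 + t * hh u x) * (∑ j, pt u i j x * nn u x j) - t * ∑ j, aa u i j x * nn u x j := by
    unfold cc
    rw [Finset.mul_sum, Finset.mul_sum, ← Finset.sum_sub_distrib]
    exact Finset.sum_congr rfl fun j _ => by ring
  rw [e, hp, ha]; ring

/-! ### The profile -/

lemma zt_eq (τ t : ℝ) : zt τ t = th (|t| - τ + 1) := by
  unfold zt th
  congr 1
  ring

lemma dep_eq (ε κ : ℝ) (u : R3 → ℝ) :
    dep ε κ u = fun x => -(Real.log (ε * (qq u x + κ ^ 2)) / (2 * √2)) := by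
  funext x
  unfold dep
  rw [one_div, Real.log_inv]; ring

lemma pd_dep (hu : Sol u) (h1 : ∀ x, |u x| < 1) (hε : 0 < ε) (hκ : 0 < κ) (j : Fin 3) (x : R3) :
    DifferentiableAt ℝ (dep ε κ u) x ∧
    pd j (dep ε κ u) x = -(pd j (qq u) x / (2 * √2 * (qq u x + κ ^ 2))) := by
  have hq := qq_nonneg hu h1 x
  have dqq : DifferentiableAt ℝ (qq u) x := (qq_contDiff hu h1 1).differentiable (by norm_num) x
  have hz : 0 < ε * (qq u x + κ ^ 2) := by positivity
  have d1 : DifferentiableAt ℝ (fun y => ε * (qq u y + κ ^ 2)) x := by fun_prop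
  have hl : HasDerivAt (fun s : ℝ => -(Real.log s / (2 * √2)))
      (-((ε * (qq u x + κ ^ 2))⁻¹ / (2 * √2))) (ε * (qq u x + κ ^ 2)) :=
    ((Real.hasDerivAt_log hz.ne').div_const _).neg
  rw [dep_eq]
  refine ⟨DifferentiableAt.comp (g := fun s : ℝ => -(Real.log s / (2 * √2))) x
    hl.differentiableAt d1, ?_⟩
  rw [pd_comp (h := fun s : ℝ => -(Real.log s / (2 * √2))) hl.differentiableAt d1, hl.deriv,
    pd_mul (f := fun _ => ε) (by fun_prop) (by fun_prop), pd_const,
    pd_add dqq (differentiableAt_const _), pd_const]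
  field_simp
  ring

lemma abs_pd_dep_le (hu : Sol u) (h1 : ∀ x, |u x| < 1) (hε : 0 < ε) (hκ : 0 < κ) {M : ℝ}
    (hM : 0 ≤ M) (j : Fin 3) {x : R3} (h : |pd j (qq u) x| ≤ M * qq u x) :
    |pd j (dep ε κ u) x| ≤ M := by
  have hq := qq_nonneg hu h1 x
  have h2 : (1:ℝ) ≤ √2 := by
    rw [show (1:ℝ) = √1 by simp]; exact Real.sqrt_le_sqrt (by norm_num)
  rw [(pd_dep hu h1 hε hκ j x).2, abs_neg, abs_div, abs_of_pos (by positivity :
    0 < 2 * √2 * (qq u x + κ ^ 2)), div_le_iff₀ (by positivity)]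
  refine h.trans (mul_le_mul_of_nonneg_left ?_ hM)
  nlinarith [sq_nonneg κ, mul_nonneg hq (by linarith : 0 ≤ √2 - 1)]

lemma prf_nonneg (ε κ : ℝ) (u : R3 → ℝ) (x : R3) (t : ℝ) : 0 ≤ prf ε κ u x t := by
  unfold prf
  rw [zt_eq]
  exact mul_nonneg (g1_pos _).le (th_nonneg _)

lemma prf_le (ε κ : ℝ) (u : R3 → ℝ) (x : R3) (t : ℝ) : prf ε κ u x t ≤ g1 (phi u x + t) := by
  unfold prf
  rw [zt_eq]
  calc _ ≤ g1 (phi u x + t) * 1 := mul_le_mul_of_nonneg_left (th_le_one _) (g1_pos _).le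
    _ = _ := mul_one _

/-- Size of `g1²` beyond the depth. -/
lemma g1_sq_le (hu : Sol u) (h1 : ∀ x, |u x| < 1) (hε : 0 < ε) (hκ : 0 < κ) {s3 : ℝ}
    (hx : |phi u x| ≤ s3) (ht : dep ε κ u x ≤ |t|) :
    g1 (phi u x + t) ^ 2 ≤ 8 * Real.exp (2 * √2 * s3) * (ε * (qq u x + κ ^ 2)) := by
  have hq := qq_nonneg hu h1 x
  have hz : 0 < ε * (qq u x + κ ^ 2) := by positivity
  have h2 := g1_le (phi u x + t)
  have h3 : |t| - s3 ≤ |phi u x + t| := by
    have h4 : |t| ≤ |phi u x + t| + |phi u x| := by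
      calc |t| = |(phi u x + t) - phi u x| := by ring_nf
        _ ≤ _ := abs_sub _ _
    linarith
  have hs : (√2 : ℝ) ^ 2 = 2 := Real.sq_sqrt (by norm_num)
  have h5 : g1 (phi u x + t) ^ 2 ≤ 8 * Real.exp (-(2 * √2 * |phi u x + t|)) := by
    calc g1 (phi u x + t) ^ 2 ≤ (4 / √2 * Real.exp (-(√2 * |phi u x + t|))) ^ 2 :=
          pow_le_pow_left₀ (g1_pos _).le h2 2
      _ = 8 * Real.exp (-(2 * √2 * |phi u x + t|)) := by
          rw [mul_pow, div_pow, hs, ← Real.exp_nat_mul]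
          norm_num
          ring_nf
  refine h5.trans ?_
  rw [mul_assoc 8]
  apply mul_le_mul_of_nonneg_left _ (by norm_num)
  have h6 : Real.exp (-(2 * √2 * dep ε κ u x)) = ε * (qq u x + κ ^ 2) := by
    rw [dep_eq]
    have : -(2 * √2 * -(Real.log (ε * (qq u x + κ ^ 2)) / (2 * √2)))
        = Real.log (ε * (qq u x + κ ^ 2)) := by
      field_simp
    simp only [this]
    exact Real.exp_log hz
  rw [← h6, ← Real.exp_add]
  apply Real.exp_le_exp.mpr
  have h7 : (0:ℝ) < 2 * √2 := by positivity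
  nlinarith [mul_le_mul_of_nonneg_left h3 h7.le, mul_le_mul_of_nonneg_left ht h7.le]

/-- Derivative of the test function. -/
lemma px_prf (hu : Sol u) (h1 : ∀ x, |u x| < 1) (hε : 0 < ε) (hκ : 0 < κ) {E : R3 → ℝ}
    (hE : ContDiff ℝ 1 E) (j : Fin 3) (x : R3) (t : ℝ) :
    pd j (fun y => E y * prf ε κ u y t) x
      = pd j E x * prf ε κ u x t
        + E x * (g2 (phi u x + t) * pd j (phi u) x * zt (dep ε κ u x) t
          + g1 (phi u x + t) * (-(deriv th (|t| - dep ε κ u x + 1)) * pd j (dep ε κ u) x)) := by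
  have dE : DifferentiableAt ℝ E x := hE.differentiable (by norm_num) x
  have dφ : DifferentiableAt ℝ (phi u) x :=
    (H88.phi_contDiff hu h1 1).differentiable (by norm_num) x
  have dd := (pd_dep hu h1 hε hκ j x).1
  have dφt : DifferentiableAt ℝ (fun y => phi u y + t) x := dφ.add_const _
  have d1 : DifferentiableAt ℝ (fun y => g1 (phi u y + t)) x :=
    (hasDerivAt_g1 _).differentiableAt.comp x dφt
  have darg : DifferentiableAt ℝ (fun y => |t| - dep ε κ u y + 1) x := by fun_prop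
  have dth : DifferentiableAt ℝ th (|t| - dep ε κ u x + 1) :=
    th_contDiff.differentiable (by norm_num) _
  have e : (fun y => prf ε κ u y t) = fun y => g1 (phi u y + t) * th (|t| - dep ε κ u y + 1) := by
    funext y; unfold prf; rw [zt_eq]
  have d2 : DifferentiableAt ℝ (fun y => th (|t| - dep ε κ u y + 1)) x :=
    DifferentiableAt.comp (g := th) x dth darg
  have d3 : DifferentiableAt ℝ (fun y => prf ε κ u y t) x := by rw [e]; exact d1.mul d2
  rw [pd_mul dE d3]
  have h2 : pd j (fun y => prf ε κ u y t) x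
      = g2 (phi u x + t) * pd j (phi u) x * zt (dep ε κ u x) t
          + g1 (phi u x + t) * (-(deriv th (|t| - dep ε κ u x + 1)) * pd j (dep ε κ u) x) := by
    rw [e, pd_mul d1 d2, pd_comp (h := g1) (hasDerivAt_g1 _).differentiableAt dφt,
      pd_comp (h := th) dth darg, (hasDerivAt_g1 _).deriv,
      pd_add dφ (differentiableAt_const _), pd_const,
      pd_add (f := fun y => |t| - dep ε κ u y) (by fun_prop) (differentiableAt_const _), pd_const,
      pd_sub (differentiableAt_const _) dd, pd_const, zt_eq]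
    ring
  rw [h2]
  ring

/-- The two parts of `C D_x Φ`. -/
lemma cdx_eq (hu : Sol u) (h1 : ∀ x, |u x| < 1) (hε : 0 < ε) (hκ : 0 < κ) {E : R3 → ℝ}
    (hE : ContDiff ℝ 1 E) (h : 0 < gs (phi u) x) (t : ℝ) (i : Fin 3) :
    cdx u (fun z => E z.1 * prf ε κ u z.1 z.2) (x, t) i
      = prf ε κ u x t * (∑ j, cc u i j x t * pd j E x)
        + (E x * g1 (phi u x + t) * -(deriv th (|t| - dep ε κ u x + 1)))
          * ∑ j, cc u i j x t * pd j (dep ε κ u) x := by
  have h0 := cc_nn h i t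
  have h2 : ∑ j, cc u i j x t * pd j (phi u) x = 0 := by
    have e : ∀ j, cc u i j x t * pd j (phi u) x = rr u x * (cc u i j x t * nn u x j) := by
      intro j; rw [H88.pd_phi h]; ring
    simp_rw [e]
    rw [← Finset.mul_sum, h0, mul_zero]
  show ∑ j, cc u i j x t * pd j (fun y => E y * prf ε κ u y t) x = _
  simp_rw [px_prf hu h1 hε hκ hE]
  have e : ∀ j, cc u i j x t * (pd j E x * prf ε κ u x t
        + E x * (g2 (phi u x + t) * pd j (phi u) x * zt (dep ε κ u x) t
          + g1 (phi u x + t) * (-(deriv th (|t| - dep ε κ u x + 1)) * pd j (dep ε κ u) x)))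
      = prf ε κ u x t * (cc u i j x t * pd j E x)
        + (E x * g2 (phi u x + t) * zt (dep ε κ u x) t) * (cc u i j x t * pd j (phi u) x)
        + (E x * g1 (phi u x + t) * -(deriv th (|t| - dep ε κ u x + 1)))
          * (cc u i j x t * pd j (dep ε κ u) x) := fun j => by ring
  simp_rw [e]
  rw [Finset.sum_add_distrib, Finset.sum_add_distrib, ← Finset.mul_sum, ← Finset.mul_sum,
    ← Finset.mul_sum, h2]
  ring

end Vale.Agent.P134.H919
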