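import Vale.Agent.P134.H919.CDX2

set_option linter.all false

/-! `StCDX` in the exact form of `LI/Stm2.lean`. -/

namespace Vale.Agent.P134.H919

open Vale.Agent.P134 Vale.Agent.P134.SM Vale.Agent.P134.LI

theorem stCDX : StCDX := by
  intro s3 μ hs3 hμ
  obtain ⟨C, hC, h⟩ := cdx_main s3 μ hs3 hμ
  refine ⟨C, 1, hC, one_pos, fun ε hε _ => ?_⟩
  obtain ⟨δ0, hδ0, h2⟩ := h ε hε
  exact ⟨δ0, hδ0, fun κ hκ _ => h2 κ hκ⟩

end Vale.Agent.P134.H919
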