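import Vale.Agent.P134.H919.Mono

set_option linter.all false

/-! Mean value formula with an arbitrary centre `y`; the scale-invariant energy `Th`; lower bounds. -/

open MeasureTheory Filter Topology

namespace Vale.Agent.P134.H919

open Vale.Agent.P134

variable {n : ℕ} {u h g : (Fin n → ℝ) → ℝ} {Φ : ℝ → ℝ} {y : Fin n → ℝ}

/-- The radial derivative about `y` (times the distance). -/
noncomputable def sY (u : (Fin n → ℝ) → ℝ) (y x : Fin n → ℝ) : ℝ := ∑ i, (x i - y i) * pd i u x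

/-- The weighted, rescaled energy about `y`. -/
noncomputable def MhY (u h : (Fin n → ℝ) → ℝ) (Φ : ℝ → ℝ) (y : Fin n → ℝ) (R : ℝ) : ℝ :=
  (∫ x, cr Φ R (x - y) * (h x * en u x)) / R ^ (n - 1)

/-- `R^n` times the derivative of `MhY`. -/
noncomputable def dMhY (u h : (Fin n → ℝ) → ℝ) (Φ : ℝ → ℝ) (y : Fin n → ℝ) (R : ℝ) : ℝ :=
  ∫ x, (cr Φ R (x - y) * (h x * (defi u x / 2))
    - 2 / R ^ 2 * (deriv Φ (rho Finset.univ (x - y) / R ^ 2) * (h x * sY u y x ^ 2))
    + cr Φ R (x - y) * (en u x * (∑ i, (x i - y i) * pd i h x)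
      - sY u y x * (∑ i, pd i u x * pd i h x)))

lemma pd_tr (f : (Fin n → ℝ) → ℝ) (y : Fin n → ℝ) (i : Fin n) (x : Fin n → ℝ) :
    pd i (fun z => f (z + y)) x = pd i f (x + y) := pd_translate y

lemma en_tr (u : (Fin n → ℝ) → ℝ) (y x : Fin n → ℝ) :
    en (fun z => u (z + y)) x = en u (x + y) := by
  unfold en
  simp_rw [pd_tr]

lemma defi_tr (u : (Fin n → ℝ) → ℝ) (y x : Fin n → ℝ) :
    defi (fun z => u (z + y)) x = defi u (x + y) := by
  unfold defi psi
  simp_rw [pd_tr]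

lemma sx_tr (u : (Fin n → ℝ) → ℝ) (y x : Fin n → ℝ) :
    sx (fun z => u (z + y)) x = sY u y (x + y) := by
  unfold sx sY
  simp_rw [pd_tr]
  simp

lemma MhY_eq (u h : (Fin n → ℝ) → ℝ) (Φ : ℝ → ℝ) (y : Fin n → ℝ) (R : ℝ) :
    MhY u h Φ y R = Mh (fun z => u (z + y)) (fun z => h (z + y)) Φ R := by
  unfold MhY Mh
  congr 1
  rw [← integral_add_right_eq_self (fun x => cr Φ R (x - y) * (h x * en u x)) y]
  simp_rw [en_tr, add_sub_cancel_right]

lemma dMhY_eq (u h : (Fin n → ℝ) → ℝ) (Φ : ℝ → ℝ) (y : Fin n → ℝ) (R : ℝ) :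
    dMhY u h Φ y R = dMh (fun z => u (z + y)) (fun z => h (z + y)) Φ R := by
  unfold dMhY dMh
  rw [← integral_add_right_eq_self _ y]
  simp_rw [en_tr, defi_tr, sx_tr, pd_tr, add_sub_cancel_right]
  simp

/-- Mean value formula, arbitrary centre. -/
theorem hasDerivAt_MhY (hn : 0 < n) (hu : Sol u) (hΦ : ContDiff ℝ 1 Φ)
    (hΦ0 : ∀ t, 2 ≤ t → Φ t = 0) (hh : ContDiff ℝ 1 h) (y : Fin n → ℝ) {R : ℝ} (hR : 0 < R) :
    HasDerivAt (MhY u h Φ y) (dMhY u h Φ y R / R ^ n) R := by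
  have hh' : ContDiff ℝ 1 (fun z => h (z + y)) := hh.comp (contDiff_id.add contDiff_const)
  have := hasDerivAt_Mh (u := fun z => u (z + y)) (h := fun z => h (z + y)) hn (hu.translate y)
    hΦ hΦ0 hh' hR
  rw [dMhY_eq]
  have e : MhY u h Φ y = Mh (fun z => u (z + y)) (fun z => h (z + y)) Φ := by
    funext R; exact MhY_eq u h Φ y R
  rw [e]
  exact this

/-- The scale-invariant energy. -/
noncomputable def Th (u : (Fin n → ℝ) → ℝ) (Φ : ℝ → ℝ) (y : Fin n → ℝ) (R : ℝ) : ℝ :=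
  (∫ x, cr Φ R (x - y) * en u x) / R ^ (n - 1)

/-- `R^n` times the derivative of `Th`. -/
noncomputable def dTh (u : (Fin n → ℝ) → ℝ) (Φ : ℝ → ℝ) (y : Fin n → ℝ) (R : ℝ) : ℝ :=
  ∫ x, (cr Φ R (x - y) * (defi u x / 2)
    - 2 / R ^ 2 * (deriv Φ (rho Finset.univ (x - y) / R ^ 2) * sY u y x ^ 2))

lemma Th_eq (u : (Fin n → ℝ) → ℝ) (Φ : ℝ → ℝ) (y : Fin n → ℝ) :
    Th u Φ y = MhY u (fun _ => 1) Φ y := by
  funext R; unfold Th MhY; simp

lemma dTh_eq (u : (Fin n → ℝ) → ℝ) (Φ : ℝ → ℝ) (y : Fin n → ℝ) :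
    dTh u Φ y = dMhY u (fun _ => 1) Φ y := by
  funext R; unfold dTh dMhY
  simp [pd_const]

/-- Monotonicity formula. -/
theorem hasDerivAt_Th (hn : 0 < n) (hu : Sol u) (hΦ : ContDiff ℝ 1 Φ)
    (hΦ0 : ∀ t, 2 ≤ t → Φ t = 0) (y : Fin n → ℝ) {R : ℝ} (hR : 0 < R) :
    HasDerivAt (Th u Φ y) (dTh u Φ y R / R ^ n) R := by
  rw [Th_eq, dTh_eq]
  exact hasDerivAt_MhY hn hu hΦ hΦ0 contDiff_const y hR

/-! ### Generic continuity and integrability of the radial integrals -/

lemma rhoY_continuous (y : Fin n → ℝ) : Continuous (fun x : Fin n → ℝ => rho Finset.univ (x - y)) :=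
  (rho_contDiff (k := 0) _).continuous.comp (continuous_id.sub continuous_const)

lemma isCompact_rhoY_le (y : Fin n → ℝ) (r : ℝ) :
    IsCompact {x : Fin n → ℝ | rho Finset.univ (x - y) ≤ r} := by
  have h1 := (isCompact_rho_le (n := n) r).image (continuous_id.add continuous_const :
    Continuous (fun x : Fin n → ℝ => x + y))
  convert h1 using 1
  ext x
  simp only [Set.mem_setOf_eq, Set.mem_image]
  constructor
  · intro h; exact ⟨x - y, h, by simp⟩
  · rintro ⟨z, hz, rfl⟩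
    simpa using hz

lemma crY_contDiff (hΦ : ContDiff ℝ 1 Φ) (R : ℝ) (y : Fin n → ℝ) :
    ContDiff ℝ 1 (fun x : Fin n → ℝ => cr Φ R (x - y)) :=
  (cr_contDiff hΦ R).comp (contDiff_id.sub contDiff_const)

lemma cr_eq_zero (hΦ0 : ∀ t, 2 ≤ t → Φ t = 0) {R : ℝ} (hR : 0 < R) {x : Fin n → ℝ}
    (hx : 2 * R ^ 2 ≤ rho Finset.univ x) : cr Φ R x = 0 := by
  apply hΦ0
  rw [le_div_iff₀ (by positivity)]
  exact hx

lemma dcr_eq_zero (hΦ : ContDiff ℝ 1 Φ) (hΦ0 : ∀ t, 2 ≤ t → Φ t = 0) {R : ℝ} (hR : 0 < R)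
    {x : Fin n → ℝ} (hx : 2 * R ^ 2 ≤ rho Finset.univ x) :
    deriv Φ (rho Finset.univ x / R ^ 2) = 0 := by
  apply deriv_zero_of_ge hΦ hΦ0
  rw [le_div_iff₀ (by positivity)]
  exact hx

lemma integrable_crY (hΦ : ContDiff ℝ 1 Φ) (hΦ0 : ∀ t, 2 ≤ t → Φ t = 0) {R : ℝ} (hR : 0 < R)
    (y : Fin n → ℝ) (hg : Continuous g) : Integrable (fun x => cr Φ R (x - y) * g x) := by
  apply Continuous.integrable_of_hasCompactSupport
  · exact (crY_contDiff hΦ R y).continuous.mul hg
  · apply HasCompactSupport.intro (isCompact_rhoY_le y (2 * R ^ 2))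
    intro x hx
    simp only [Set.mem_setOf_eq, not_le] at hx
    rw [cr_eq_zero hΦ0 hR hx.le, zero_mul]

lemma integrable_dcrY (hΦ : ContDiff ℝ 1 Φ) (hΦ0 : ∀ t, 2 ≤ t → Φ t = 0) {R : ℝ} (hR : 0 < R)
    (y : Fin n → ℝ) (hg : Continuous g) :
    Integrable (fun x => deriv Φ (rho Finset.univ (x - y) / R ^ 2) * g x) := by
  apply Continuous.integrable_of_hasCompactSupport
  · exact ((hΦ.continuous_deriv (by norm_num)).comp ((rhoY_continuous y).div_const _)).mul hg
  · apply HasCompactSupport.intro (isCompact_rhoY_le y (2 * R ^ 2))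
    intro x hx
    simp only [Set.mem_setOf_eq, not_le] at hx
    rw [dcr_eq_zero hΦ hΦ0 hR hx.le, zero_mul]

/-- Differentiation in the radius, arbitrary centre. -/
theorem hasDerivAt_crY (hΦ : ContDiff ℝ 1 Φ) (hΦ0 : ∀ t, 2 ≤ t → Φ t = 0) (hg : Continuous g)
    (y : Fin n → ℝ) {R : ℝ} (hR : 0 < R) :
    HasDerivAt (fun R => ∫ x, cr Φ R (x - y) * g x)
      (∫ x, deriv Φ (rho Finset.univ (x - y) / R ^ 2)
        * (-2 * rho Finset.univ (x - y) / R ^ 3) * g x) R := by
  have hg' : Continuous (fun z => g (z + y)) := hg.comp (continuous_id.add continuous_const)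
  have h1 := hasDerivAt_cr hΦ hΦ0 hg' hR
  have e1 : (fun R => ∫ x, cr Φ R (x - y) * g x) = fun R => ∫ x, cr Φ R x * g (x + y) := by
    funext R
    rw [← integral_add_right_eq_self (fun x => cr Φ R (x - y) * g x) y]
    simp_rw [add_sub_cancel_right]
  rw [e1, ← integral_add_right_eq_self _ y]
  simp_rw [add_sub_cancel_right]
  exact h1

/-- Continuity in the radius of radial integrals. -/
theorem continuousOn_radial {F : ℝ → ℝ} (hF : Continuous F) (hF0 : ∀ t, 2 ≤ t → F t = 0)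
    (hg : Continuous g) (y : Fin n → ℝ) :
    ContinuousOn (fun R : ℝ => ∫ x, F (rho Finset.univ (x - y) / R ^ 2) * g x) (Set.Ioi 0) := by
  intro R hR
  have hR : 0 < R := hR
  obtain ⟨C, hC⟩ := (isCompact_Icc (a := (0:ℝ)) (b := 2)).exists_bound_of_continuousOn
    hF.continuousOn
  have hC' : ∀ t, 0 ≤ t → |F t| ≤ max C 0 := by
    intro t ht
    by_cases h2 : 2 ≤ t
    · rw [hF0 t h2]; simp
    · exact (hC t ⟨ht, (not_le.mp h2).le⟩).trans (le_max_left _ _)
  set K : Set (Fin n → ℝ) := {x | rho Finset.univ (x - y) ≤ 8 * R ^ 2} with hK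
  have hKc : IsCompact K := isCompact_rhoY_le y _
  have hKm : MeasurableSet K := hKc.isClosed.measurableSet
  apply ContinuousAt.continuousWithinAt
  apply continuousAt_of_dominated (bound := K.indicator (fun x => max C 0 * |g x|))
  · refine Eventually.of_forall fun r => ?_
    exact ((hF.comp ((rhoY_continuous y).div_const _)).mul hg).aestronglyMeasurable
  · have hs : Metric.ball R (R / 2) ∈ 𝓝 R := Metric.ball_mem_nhds R (by positivity)
    filter_upwards [hs] with r hr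
    rw [Metric.mem_ball, Real.dist_eq, abs_lt] at hr
    have hr0 : 0 < r := by linarith [hr.1]
    have hr2 : r < 2 * R := by linarith [hr.2]
    refine Eventually.of_forall fun x => ?_
    by_cases hx : rho Finset.univ (x - y) ≤ 8 * R ^ 2
    · rw [Set.indicator_of_mem (show x ∈ K from hx), norm_mul, Real.norm_eq_abs, Real.norm_eq_abs]
      exact mul_le_mul_of_nonneg_right (hC' _ (div_nonneg (rho_nonneg _ _) (by positivity)))
        (abs_nonneg _)
    · have h1 : 2 ≤ rho Finset.univ (x - y) / r ^ 2 := by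
        rw [le_div_iff₀ (by positivity)]
        have : r ^ 2 ≤ (2 * R) ^ 2 := pow_le_pow_left₀ hr0.le hr2.le 2
        nlinarith [not_le.mp hx]
      rw [hF0 _ h1]
      simp only [zero_mul, norm_zero]
      apply Set.indicator_nonneg
      intro z _
      exact mul_nonneg (le_max_right _ _) (abs_nonneg _)
  · rw [integrable_indicator_iff hKm]
    exact (continuous_const.mul hg.abs).continuousOn.integrableOn_compact hKc
  · refine Eventually.of_forall fun x => ?_
    apply ContinuousAt.mul _ continuousAt_const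
    apply hF.continuousAt.comp
    apply ContinuousAt.div continuousAt_const (continuousAt_id.pow 2)
    exact pow_ne_zero 2 (ne_of_gt hR)

/-! ### Inequalities for profiles with `Φ ≥ 0`, `Φ' ≤ 0` -/

/-- The class of admissible cut-off profiles. -/
structure Prof (Φ : ℝ → ℝ) : Prop where
  c1 : ContDiff ℝ 1 Φ
  zero : ∀ t, 2 ≤ t → Φ t = 0
  nonneg : ∀ t, 0 ≤ Φ t
  le_one : ∀ t, Φ t ≤ 1
  anti : ∀ t, deriv Φ t ≤ 0

lemma th_antitone : Antitone th := by
  intro a b hab
  unfold th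
  exact Real.smoothTransition.monotone (by linarith)

lemma prof_th : Prof th where
  c1 := th_contDiff
  zero := fun t ht => th_zero ht
  nonneg := th_nonneg
  le_one := th_le_one
  anti := fun t => th_antitone.deriv_nonpos

lemma cr_th (R : ℝ) (x : Fin n → ℝ) : cr th R x = cutb Finset.univ R x := rfl

lemma cr_nonneg (hΦ : Prof Φ) (R : ℝ) (x : Fin n → ℝ) : 0 ≤ cr Φ R x := hΦ.nonneg _
lemma cr_le_one (hΦ : Prof Φ) (R : ℝ) (x : Fin n → ℝ) : cr Φ R x ≤ 1 := hΦ.le_one _

lemma sY_continuous (hu : ContDiff ℝ 1 u) (y : Fin n → ℝ) : Continuous (sY u y) := by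
  unfold sY
  exact continuous_finsetSum _ fun i _ =>
    ((continuous_apply i).sub continuous_const).mul (continuous_pd hu)

/-- Splitting of `dTh`. -/
lemma dTh_split (hu : Sol u) (hΦ : Prof Φ) (y : Fin n → ℝ) {R : ℝ} (hR : 0 < R) :
    dTh u Φ y R = (1 / 2) * (∫ x, cr Φ R (x - y) * defi u x)
      + 2 / R ^ 2 * (∫ x, (- deriv Φ (rho Finset.univ (x - y) / R ^ 2)) * sY u y x ^ 2) := by
  have cs : Continuous (fun x => sY u y x ^ 2) :=
    (sY_continuous (u := u) (hu.c2.of_le (by norm_num)) y).pow 2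
  have i1 := integrable_crY hΦ.c1 hΦ.zero hR y hu.defi_continuous
  have i2 := integrable_dcrY hΦ.c1 hΦ.zero hR y cs
  have e : ∀ x, cr Φ R (x - y) * (defi u x / 2)
      - 2 / R ^ 2 * (deriv Φ (rho Finset.univ (x - y) / R ^ 2) * sY u y x ^ 2)
      = (1 / 2) * (cr Φ R (x - y) * defi u x)
        + (- (2 / R ^ 2)) * (deriv Φ (rho Finset.univ (x - y) / R ^ 2) * sY u y x ^ 2) := by
    intro x; ring
  unfold dTh
  simp_rw [e]
  rw [integral_add (i1.const_mul _) (i2.const_mul _), integral_const_mul, integral_const_mul]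
  simp_rw [neg_mul]
  rw [integral_neg]
  ring

lemma dTh_nonneg (hu : Sol u) (hΦ : Prof Φ) (y : Fin n → ℝ) {R : ℝ} (hR : 0 < R) :
    0 ≤ dTh u Φ y R := by
  rw [dTh_split hu hΦ y hR]
  have h1 : 0 ≤ ∫ x, cr Φ R (x - y) * defi u x :=
    integral_nonneg fun x => mul_nonneg (cr_nonneg hΦ _ _) (hu.defi_nonneg x)
  have h2 : 0 ≤ ∫ x, (- deriv Φ (rho Finset.univ (x - y) / R ^ 2)) * sY u y x ^ 2 :=
    integral_nonneg fun x => mul_nonneg (neg_nonneg.mpr (hΦ.anti _)) (sq_nonneg _)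
  positivity

/-- `Th` is monotone. -/
theorem Th_mono (hn : 0 < n) (hu : Sol u) (hΦ : Prof Φ) (y : Fin n → ℝ) :
    MonotoneOn (Th u Φ y) (Set.Ioi 0) := by
  apply monotoneOn_of_deriv_nonneg (convex_Ioi 0)
  · intro R hR
    exact (hasDerivAt_Th hn hu hΦ.c1 hΦ.zero y hR).continuousAt.continuousWithinAt
  · intro R hR
    rw [interior_Ioi] at hR
    exact (hasDerivAt_Th hn hu hΦ.c1 hΦ.zero y hR).differentiableAt.differentiableWithinAt
  · intro R hR
    rw [interior_Ioi] at hR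
    rw [(hasDerivAt_Th hn hu hΦ.c1 hΦ.zero y hR).deriv]
    have hR' : (0:ℝ) < R := hR
    exact div_nonneg (dTh_nonneg hu hΦ y hR) (by positivity)

/-- The radial second moment. -/
noncomputable def Gs (u : (Fin n → ℝ) → ℝ) (Φ : ℝ → ℝ) (y : Fin n → ℝ) (R : ℝ) : ℝ :=
  ∫ x, cr Φ R (x - y) * sY u y x ^ 2

/-- The energy drop controls the radial derivative. -/
theorem Gs_le (hn : 0 < n) (hu : Sol u) (hΦ : Prof Φ) (y : Fin n → ℝ) {r R : ℝ} (hr : 0 < r)
    (hrR : r ≤ R) :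
    Gs u Φ y R / R ^ (n + 1) ≤ 2 * (Th u Φ y R - Th u Φ y r) + Gs u Φ y r / R ^ (n + 1) := by
  have hR : 0 < R := lt_of_lt_of_le hr hrR
  have cs : Continuous (fun x => sY u y x ^ 2) :=
    (sY_continuous (u := u) (hu.c2.of_le (by norm_num)) y).pow 2
  set F : ℝ → ℝ := fun ρ => 2 * Th u Φ y ρ - Gs u Φ y ρ / R ^ (n + 1) with hF
  have hder : ∀ ρ, 0 < ρ → HasDerivAt F (2 * (dTh u Φ y ρ / ρ ^ n)
      - (∫ x, deriv Φ (rho Finset.univ (x - y) / ρ ^ 2)
        * (-2 * rho Finset.univ (x - y) / ρ ^ 3) * sY u y x ^ 2) / R ^ (n + 1)) ρ := by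
    intro ρ hρ
    exact ((hasDerivAt_Th hn hu hΦ.c1 hΦ.zero y hρ).const_mul 2).sub
      ((hasDerivAt_crY hΦ.c1 hΦ.zero cs y hρ).div_const _)
  have hmono : MonotoneOn F (Set.Icc r R) := by
    apply monotoneOn_of_deriv_nonneg (convex_Icc r R)
    · intro ρ hρ
      exact (hder ρ (lt_of_lt_of_le hr hρ.1)).continuousAt.continuousWithinAt
    · intro ρ hρ
      rw [interior_Icc] at hρ
      exact (hder ρ (hr.trans hρ.1)).differentiableAt.differentiableWithinAt
    · intro ρ hρ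
      rw [interior_Icc] at hρ
      have hρ0 : 0 < ρ := hr.trans hρ.1
      have hρR : ρ ≤ R := hρ.2.le
      rw [(hder ρ hρ0).deriv, dTh_split hu hΦ y hρ0]
      have h1 : 0 ≤ ∫ x, cr Φ ρ (x - y) * defi u x :=
        integral_nonneg fun x => mul_nonneg (cr_nonneg hΦ _ _) (hu.defi_nonneg x)
      set J : ℝ := ∫ x, (- deriv Φ (rho Finset.univ (x - y) / ρ ^ 2)) * sY u y x ^ 2 with hJ
      have hJ0 : 0 ≤ J :=
        integral_nonneg fun x => mul_nonneg (neg_nonneg.mpr (hΦ.anti _)) (sq_nonneg _)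
      have i2 := integrable_dcrY hΦ.c1 hΦ.zero hρ0 y cs
      have cr3 : Continuous (fun x : Fin n → ℝ =>
          (-2 * rho Finset.univ (x - y) / ρ ^ 3) * sY u y x ^ 2) :=
        ((continuous_const.mul (rhoY_continuous y)).div_const _).mul cs
      have i3 := integrable_dcrY hΦ.c1 hΦ.zero hρ0 y cr3
      have h2 : (∫ x, deriv Φ (rho Finset.univ (x - y) / ρ ^ 2)
          * (-2 * rho Finset.univ (x - y) / ρ ^ 3) * sY u y x ^ 2) ≤ 4 / ρ * J := by
        rw [hJ, ← integral_const_mul]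
        apply integral_mono
        · refine i3.congr (Eventually.of_forall fun x => ?_)
          simp only
          ring
        · refine (i2.const_mul (-(4 / ρ))).congr (Eventually.of_forall fun x => ?_)
          simp only
          ring
        · intro x
          simp only
          by_cases hx : 2 * ρ ^ 2 ≤ rho Finset.univ (x - y)
          · rw [dcr_eq_zero hΦ.c1 hΦ.zero hρ0 hx]; simp
          · have hx' := not_le.mp hx
            have h3 : 0 ≤ - deriv Φ (rho Finset.univ (x - y) / ρ ^ 2) * sY u y x ^ 2 :=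
              mul_nonneg (neg_nonneg.mpr (hΦ.anti _)) (sq_nonneg _)
            have h4 : 2 * rho Finset.univ (x - y) / ρ ^ 3 ≤ 4 / ρ := by
              rw [div_le_div_iff₀ (by positivity) hρ0]
              nlinarith [hx', hρ0, pow_pos hρ0 2]
            calc deriv Φ (rho Finset.univ (x - y) / ρ ^ 2)
                * (-2 * rho Finset.univ (x - y) / ρ ^ 3) * sY u y x ^ 2
                = (2 * rho Finset.univ (x - y) / ρ ^ 3)
                  * (- deriv Φ (rho Finset.univ (x - y) / ρ ^ 2) * sY u y x ^ 2) := by ring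
              _ ≤ 4 / ρ * (- deriv Φ (rho Finset.univ (x - y) / ρ ^ 2) * sY u y x ^ 2) :=
                  mul_le_mul_of_nonneg_right h4 h3
      have h5 : (∫ x, deriv Φ (rho Finset.univ (x - y) / ρ ^ 2)
          * (-2 * rho Finset.univ (x - y) / ρ ^ 3) * sY u y x ^ 2) / R ^ (n + 1)
          ≤ 4 / ρ * J / ρ ^ (n + 1) := by
        calc _ ≤ (4 / ρ * J) / R ^ (n + 1) := by gcongr
          _ ≤ (4 / ρ * J) / ρ ^ (n + 1) := by
              apply div_le_div_of_nonneg_left (by positivity) (by positivity)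
              exact pow_le_pow_left₀ hρ0.le hρR _
      have h6 : 2 * ((1 / 2 * (∫ x, cr Φ ρ (x - y) * defi u x) + 2 / ρ ^ 2 * J) / ρ ^ n)
          = (∫ x, cr Φ ρ (x - y) * defi u x) / ρ ^ n + 4 / ρ * J / ρ ^ (n + 1) := by
        field_simp
        ring
      rw [h6]
      have h7 : 0 ≤ (∫ x, cr Φ ρ (x - y) * defi u x) / ρ ^ n := by positivity
      linarith
  have hm := hmono ⟨le_refl r, hrR⟩ ⟨hrR, le_refl R⟩ hrR
  simp only [hF] at hm
  linarith

end Vale.Agent.P134.H919
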