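import Vale.Agent.P134.H919.MonoY
import Vale.Agent.P134.H688.Ift
import Vale.Agent.P134.M4.Defs

set_option linter.all false

/-! Blocks 1.1 and 1.2 of M4': cubic energy bound and decay of the radial derivative. -/

open MeasureTheory Filter Topology

namespace Vale.Agent.P134.H919

open Vale.Agent.P134 Vale.Agent.P134.M4
open Vale.Agent.P134.H688 (gn gn_nonneg gn_sq continuous_gn hasCompactSupport_gn Ps)
open Vale.Agent.P134.H891 (rd)

variable {n : ℕ} {u : (Fin n → ℝ) → ℝ}

lemma gn_cutb_le {C : ℝ} (hC : ∀ t, |deriv th t| ≤ C) {R : ℝ} (hR : 0 < R) (x : Fin n → ℝ) :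
    gn (cutb Finset.univ R) x ≤ n * (3 * C / R) := by
  have hC0 : 0 ≤ C := (abs_nonneg _).trans (hC 0)
  have hb : 0 ≤ 3 * C / R := by positivity
  have h1 : gn (cutb Finset.univ R) x ≤ ∑ i : Fin n, |pd i (cutb Finset.univ R) x| := by
    apply le_of_sq_le_sq _ (Finset.sum_nonneg fun _ _ => abs_nonneg _)
    rw [gn_sq]
    have := Finset.sum_sq_le_sq_sum_of_nonneg (s := (Finset.univ : Finset (Fin n)))
      (f := fun i => |pd i (cutb Finset.univ R) x|) (fun i _ => abs_nonneg _)
    simpa only [sq_abs] using this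
  refine h1.trans ?_
  calc ∑ i : Fin n, |pd i (cutb Finset.univ R) x| ≤ ∑ i : Fin n, 3 * C / R :=
        Finset.sum_le_sum fun i _ => pd_cutb_bound hC _ hR
    _ = n * (3 * C / R) := by simp

lemma abs_Ps_sub_le {t : ℝ} (ht : |t| ≤ 1) : |Ps 1 - Ps t| ≤ 1 := by
  have := H891.Psi_le_one ht
  have h0 := H891.Psi_nonneg ht
  have h1 := H891.Psi_le_Psi_one ht
  have h2 := H891.Psi_one_le
  have e : Ps 1 - Ps t = H891.Psi 1 - H891.Psi t := by
    unfold Ps H891.Psi; ring
  rw [e, abs_of_nonneg (by linarith)]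
  linarith

/-- Energy growth, centre `0`. -/
lemma energy_le {q : Fin n} (hu : Sol u) (hq : ∀ x, 0 < pd q u x) (hl : H688.Lim q u) {C : ℝ}
    (hC : ∀ t, |deriv th t| ≤ C) {R : ℝ} (hR : 0 < R) :
    ∫ x, cutb Finset.univ R x * en u x ≤ n * (3 * C / R) * (4 * R) ^ n := by
  have hC0 : 0 ≤ C := (abs_nonneg _).trans (hC 0)
  have cφ : ContDiff ℝ 1 (cutb (n := n) Finset.univ R) := cutb_contDiff _ R
  have sφ : HasCompactSupport (cutb (n := n) Finset.univ R) :=
    cr_hasCompactSupport (fun t ht => th_zero ht) hR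
  refine (H688.flux hu hq hl cφ sφ (cutb_nonneg _ _) (ε := 1) (by norm_num)).trans ?_
  set K : Set (Fin n → ℝ) := box n (2 * R) with hK
  have hKc : IsCompact K := isCompact_box _
  have hz : ∀ x, x ∉ K → gn (cutb Finset.univ R) x = 0 := by
    intro x hx
    have h0 : x ∉ tsupport (cutb (n := n) Finset.univ R) := by
      intro hcon
      apply hx
      refine closure_minimal ?_ hKc.isClosed hcon
      intro z hz
      by_contra hzK
      apply hz
      rw [hK, mem_box] at hzK
      push Not at hzK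
      obtain ⟨i, hi⟩ := hzK
      apply cutb_eq_zero hR
      have h2 := sq_le_rho (Finset.mem_univ i) z
      have : (2 * R) ^ 2 < |z i| ^ 2 := pow_lt_pow_left₀ hi (by positivity) (by norm_num)
      rw [sq_abs] at this
      nlinarith
    exact H688.gn_eq_zero_of_notMem h0
  have hb : ∀ x, gn (cutb Finset.univ R) x * |Ps 1 - Ps (u x)|
      ≤ K.indicator (fun _ => n * (3 * C / R)) x := by
    intro x
    by_cases hx : x ∈ K
    · rw [Set.indicator_of_mem hx]
      calc _ ≤ (n * (3 * C / R)) * 1 := mul_le_mul (gn_cutb_le hC hR x)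
            (abs_Ps_sub_le (hu.bd x)) (abs_nonneg _) (by positivity)
        _ = _ := mul_one _
    · rw [hz x hx, Set.indicator_of_notMem hx, zero_mul]
  calc ∫ x, gn (cutb Finset.univ R) x * |Ps 1 - Ps (u x)|
      ≤ ∫ x, K.indicator (fun _ => (n:ℝ) * (3 * C / R)) x := by
        apply integral_mono_of_nonneg
        · exact Eventually.of_forall fun x => mul_nonneg (gn_nonneg _ _) (abs_nonneg _)
        · rw [integrable_indicator_iff hKc.measurableSet]
          exact continuous_const.continuousOn.integrableOn_compact hKc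
        · exact Eventually.of_forall hb
    _ = n * (3 * C / R) * (4 * R) ^ n := by
        rw [integral_indicator hKc.measurableSet, setIntegral_const, Measure.real,
          volume_box (by positivity)]
        simp only [smul_eq_mul]
        ring

lemma psi_sq_le_en (u : (Fin n → ℝ) → ℝ) (x : Fin n → ℝ) : psi u x ^ 2 ≤ 4 * en u x := by
  unfold en psi
  have : 0 ≤ ∑ j, pd j u x ^ 2 := Finset.sum_nonneg fun _ _ => sq_nonneg _
  linarith

lemma isCompact_bl (R : ℝ) : IsCompact (bl (n := n) R) := isCompact_rho_le _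

lemma measurableSet_bl (R : ℝ) : MeasurableSet (bl (n := n) R) := (isCompact_bl R).measurableSet

lemma cutb_one_of_mem {R : ℝ} (hR : 0 < R) {x : Fin n → ℝ} (hx : x ∈ bl R) :
    cutb Finset.univ R x = 1 := by
  unfold cutb
  apply th_one
  rw [div_le_one (by positivity)]
  exact hx

lemma integrable_cutb {R : ℝ} (hR : 0 < R) {g : (Fin n → ℝ) → ℝ} (hg : Continuous g) :
    Integrable (fun x => cutb Finset.univ R x * g x) := by
  have sφ : HasCompactSupport (cutb (n := n) Finset.univ R) :=
    cr_hasCompactSupport (fun t ht => th_zero ht) hR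
  exact ((cutb_contDiff _ R).continuous.mul hg).integrable_of_hasCompactSupport sφ.mul_right

lemma setInt_bl_le {R : ℝ} (hR : 0 < R) {g : (Fin n → ℝ) → ℝ} (hg : Continuous g)
    (hg0 : ∀ x, 0 ≤ g x) : ∫ x in bl R, g x ≤ ∫ x, cutb Finset.univ R x * g x := by
  rw [← integral_indicator (measurableSet_bl R)]
  apply integral_mono_of_nonneg
  · exact Eventually.of_forall fun x => Set.indicator_nonneg (fun y _ => hg0 y) x
  · exact integrable_cutb hR hg
  · refine Eventually.of_forall fun x => ?_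
    by_cases hx : x ∈ bl R
    · rw [Set.indicator_of_mem hx]
      simp only
      rw [cutb_one_of_mem hR hx, one_mul]
    · rw [Set.indicator_of_notMem hx]
      exact mul_nonneg (cutb_nonneg _ _ _) (hg0 x)

/-- The two limits pass to translates. -/
lemma _root_.Vale.Agent.P134.M4.Mo.translate' {u : (Fin 4 → ℝ) → ℝ} (h : Mo u) (a : Fin 4 → ℝ) :
    Mo (fun x => u (x + a)) where
  toSol := h.toSol.translate a
  pos := fun x => by rw [pd_translate]; exact h.pos _
  top := fun x => by
    have := h.top (x + a)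
    refine this.congr fun t => ?_
    congr 1; abel
  bot := fun x => by
    have := h.bot (x + a)
    refine this.congr fun t => ?_
    congr 1; abel

lemma _root_.Vale.Agent.P134.M4.Mo.lim {u : (Fin 4 → ℝ) → ℝ} (h : Mo u) : H688.Lim 3 u where
  top := h.top
  bot := h.bot

/-- Cubic growth of the energy, one constant for all centres and all radii. -/
theorem exists_energy : ∃ C : ℝ, 0 ≤ C ∧ ∀ u : (Fin 4 → ℝ) → ℝ, Mo u → ∀ R : ℝ, 0 < R →
    ∫ x, cutb Finset.univ R x * en u x ≤ C * R ^ 3 := by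
  obtain ⟨C, hC1, hC⟩ := exists_th_bound
  refine ⟨4 * (3 * C) * 256, by positivity, fun u hu R hR => ?_⟩
  refine (energy_le hu.toSol hu.pos hu.lim hC hR).trans (le_of_eq ?_)
  field_simp
  push_cast
  ring

theorem e3' {u : (Fin 4 → ℝ) → ℝ} (hu : Mo u) : E3' u := by
  obtain ⟨C, hC0, hC⟩ := exists_energy
  refine ⟨4 * C, fun y R hR => ?_⟩
  have hR0 : 0 < R := by linarith
  have hv := hu.translate' y
  have h1 := hC _ hv R hR0
  have cen : Continuous (en (fun x => u (x + y))) := (en_contDiff hv.c2).continuous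
  have cpsi : Continuous (fun x => psi u (x + y) ^ 2) := by
    have : Continuous u := hu.c2.continuous
    unfold psi
    fun_prop
  calc ∫ x in bl R, psi u (x + y) ^ 2 ≤ ∫ x, cutb Finset.univ R x * psi u (x + y) ^ 2 :=
        setInt_bl_le hR0 cpsi (fun x => sq_nonneg _)
    _ ≤ ∫ x, 4 * (cutb Finset.univ R x * en (fun x => u (x + y)) x) := by
        apply integral_mono (integrable_cutb hR0 cpsi) ((integrable_cutb hR0 cen).const_mul 4)
        intro x
        simp only
        have h2 : psi u (x + y) ^ 2 ≤ 4 * en (fun x => u (x + y)) x :=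
          psi_sq_le_en (fun x => u (x + y)) x
        have h3 := cutb_nonneg Finset.univ R x
        calc _ ≤ cutb Finset.univ R x * (4 * en (fun x => u (x + y)) x) :=
              mul_le_mul_of_nonneg_left h2 h3
          _ = _ := by ring
    _ = 4 * ∫ x, cutb Finset.univ R x * en (fun x => u (x + y)) x := integral_const_mul _ _
    _ ≤ 4 * (C * R ^ 3) := by linarith
    _ = 4 * C * R ^ 3 := by ring

lemma Th_zero_eq (u : (Fin n → ℝ) → ℝ) (R : ℝ) :
    Th u th 0 R = (∫ x, cutb Finset.univ R x * en u x) / R ^ (n - 1) := by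
  unfold Th
  simp only [sub_zero]
  rfl

lemma Gs_zero_eq (u : (Fin n → ℝ) → ℝ) (R : ℝ) :
    Gs u th 0 R = ∫ x, cutb Finset.univ R x * rd u x ^ 2 := by
  unfold Gs sY rd
  simp only [sub_zero, Pi.zero_apply]
  rfl

theorem s0 {u : (Fin 4 → ℝ) → ℝ} (hu : Mo u) : S0 u := by
  obtain ⟨C, hC0, hC⟩ := exists_energy
  have hmono := Th_mono (n := 4) (by norm_num) hu.toSol prof_th 0
  have hTh : ∀ R : ℝ, 0 < R → Th u th 0 R ≤ C := by
    intro R hR
    rw [Th_zero_eq, div_le_iff₀ (by positivity)]
    exact hC u hu R hR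
  have hTh0 : ∀ R : ℝ, 0 < R → 0 ≤ Th u th 0 R := by
    intro R hR
    rw [Th_zero_eq]
    apply div_nonneg (integral_nonneg fun x => mul_nonneg (cutb_nonneg _ _ _) (en_nonneg _ _))
    positivity
  -- limit of Θ
  set S : Set ℝ := Th u th 0 '' Set.Ioi 0 with hS
  have hSne : S.Nonempty := ⟨_, 1, by simp, rfl⟩
  have hSb : BddAbove S := ⟨C, by rintro _ ⟨R, hR, rfl⟩; exact hTh R hR⟩
  intro ε hε
  obtain ⟨_, ⟨r, hr, rfl⟩, hr2⟩ := exists_lt_of_lt_csSup hSne (show sSup S - ε / 4 < sSup S by linarith)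
  have hr0 : (0:ℝ) < r := hr
  have hlim : Tendsto (fun R : ℝ => Gs u th 0 r / R ^ 5) atTop (𝓝 0) :=
    Tendsto.div_atTop tendsto_const_nhds (tendsto_pow_atTop (by norm_num))
  filter_upwards [eventually_ge_atTop r, hlim.eventually (gt_mem_nhds (show (0:ℝ) < ε / 2 by linarith))]
    with R hrR hR2
  have hR0 : 0 < R := lt_of_lt_of_le hr0 hrR
  have h1 := Gs_le (n := 4) (by norm_num) hu.toSol prof_th 0 hr0 hrR
  have h2 : Th u th 0 R ≤ sSup S := le_csSup hSb ⟨R, hR0, rfl⟩
  have h3 : Gs u th 0 R / R ^ 5 ≤ ε := by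
    have e : (4 + 1 : ℕ) = 5 := rfl
    simp only [e] at h1
    linarith
  rw [div_le_iff₀ (by positivity), Gs_zero_eq] at h3
  have crd : Continuous (fun x => rd u x ^ 2) := (H891.rd_continuous hu.c2).pow 2
  exact (setInt_bl_le hR0 crd (fun x => sq_nonneg _)).trans h3

/-- Blocks 1.1 and 1.2. -/
theorem stA : StA := fun _ hu => ⟨e3' hu, s0 hu⟩

end Vale.Agent.P134.H919
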