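import Vale.Agent.P134.Bdl.B1

set_option linter.all false

open MeasureTheory Filter Topology

namespace Vale.Agent.P134.H919

open Vale.Agent.P134

variable {n : ℕ} {u h g : (Fin n → ℝ) → ℝ} {Φ : ℝ → ℝ}

/-- Inner variation identity for one component of the vector field. -/
theorem stress_comp (hu : Sol u) (j : Fin n) {X : (Fin n → ℝ) → ℝ} (hX : ContDiff ℝ 1 X)
    (hc : HasCompactSupport X) :
    ∫ x, (pd j u x * ∑ i, pd i u x * pd i X x) = ∫ x, en u x * pd j X x := by
  have h1 := integral_pd_en hu j hX hc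
  have h2 := integral_mul_pd (i := j) (en_contDiff hu.c2) hX hc
  rw [h2, h1]; simp

/-- The radial field. -/
noncomputable def sx (u : (Fin n → ℝ) → ℝ) (x : Fin n → ℝ) : ℝ := ∑ i, x i * pd i u x

lemma sx_continuous (hu : ContDiff ℝ 1 u) : Continuous (sx u) := by
  unfold sx
  exact continuous_finsetSum _ fun i _ => (continuous_apply i).mul (continuous_pd hu)

/-- Radial cut-off built on a profile `Φ`. -/
noncomputable def cr (Φ : ℝ → ℝ) (R : ℝ) (x : Fin n → ℝ) : ℝ := Φ (rho Finset.univ x / R ^ 2)

lemma cr_contDiff (hΦ : ContDiff ℝ 1 Φ) (R : ℝ) : ContDiff ℝ 1 (cr (n := n) Φ R) :=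
  hΦ.comp ((rho_contDiff _).div_const _)

lemma isCompact_rho_le (r : ℝ) : IsCompact {x : Fin n → ℝ | rho Finset.univ x ≤ r} := by
  refine (isCompact_Icc (a := fun _ : Fin n => -(r + 1)) (b := fun _ => r + 1)).of_isClosed_subset
    (isClosed_le (rho_contDiff (k := 0) _).continuous continuous_const) ?_
  intro x hx
  have hx' : rho Finset.univ x ≤ r := hx
  have h0 : 0 ≤ r := (rho_nonneg _ x).trans hx'
  have h1 : ∀ i, |x i| ≤ r + 1 := by
    intro i
    have h2 := (sq_le_rho (Finset.mem_univ i) x).trans hx'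
    have h3 : |x i| ^ 2 ≤ r := by rw [sq_abs]; exact h2
    nlinarith [abs_nonneg (x i)]
  exact ⟨fun i => (abs_le.mp (h1 i)).1, fun i => (abs_le.mp (h1 i)).2⟩

lemma cr_hasCompactSupport (hΦ0 : ∀ t, 2 ≤ t → Φ t = 0) {R : ℝ} (hR : 0 < R) :
    HasCompactSupport (cr (n := n) Φ R) := by
  apply HasCompactSupport.intro (isCompact_rho_le (2 * R ^ 2))
  intro x hx
  apply hΦ0
  rw [le_div_iff₀ (by positivity)]
  simp only [Set.mem_setOf_eq, not_le] at hx
  exact hx.le

lemma pd_cr (hΦ : ContDiff ℝ 1 Φ) (R : ℝ) (i : Fin n) (x : Fin n → ℝ) :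
    pd i (cr Φ R) x = deriv Φ (rho Finset.univ x / R ^ 2) * (2 * x i / R ^ 2) := by
  unfold cr
  have h1 : DifferentiableAt ℝ (fun y => rho (n := n) Finset.univ y / R ^ 2) x :=
    ((rho_contDiff (k := 1) _).div_const _).differentiable (by norm_num) x
  rw [pd_comp (h := Φ) (hΦ.differentiable (by norm_num) _) h1]
  congr 1
  have : (fun y => rho (n := n) Finset.univ y / R ^ 2) = fun y => (R ^ 2)⁻¹ * rho Finset.univ y := by
    ext y; rw [div_eq_inv_mul]
  rw [this, pd_mul (differentiableAt_const _) ((rho_contDiff (k := 1) _).differentiable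
    (by norm_num) x), pd_const, pd_rho, div_eq_inv_mul]
  simp

lemma deriv_zero_of_ge (hΦ : ContDiff ℝ 1 Φ) (hΦ0 : ∀ t, 2 ≤ t → Φ t = 0) {t : ℝ} (ht : 2 ≤ t) :
    deriv Φ t = 0 := by
  have hc : Continuous (deriv Φ) := hΦ.continuous_deriv (by norm_num)
  have h1 : ∀ s ∈ Set.Ioi (2:ℝ), deriv Φ s = 0 := by
    intro s hs
    have : Φ =ᶠ[𝓝 s] fun _ => 0 := by
      filter_upwards [Ioi_mem_nhds hs] with r hr using hΦ0 r (le_of_lt hr)
    rw [this.deriv_eq]; simp
  have h2 : Set.EqOn (deriv Φ) 0 (closure (Set.Ioi (2:ℝ))) :=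
    Set.EqOn.closure (fun s hs => h1 s hs) hc continuous_const
  have h3 := h2 (x := t) (by rw [closure_Ioi]; exact ht)
  simpa using h3

lemma exists_deriv_bound (hΦ : ContDiff ℝ 1 Φ) (hΦ0 : ∀ t, 2 ≤ t → Φ t = 0) :
    ∃ C : ℝ, 0 ≤ C ∧ ∀ t, 0 ≤ t → |deriv Φ t| ≤ C := by
  have hc : Continuous (deriv Φ) := hΦ.continuous_deriv (by norm_num)
  obtain ⟨C, hC⟩ := (isCompact_Icc (a := (0:ℝ)) (b := 2)).exists_bound_of_continuousOn
    hc.continuousOn
  refine ⟨max C 0, le_max_right _ _, fun t ht => ?_⟩
  by_cases h2 : 2 ≤ t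
  · rw [deriv_zero_of_ge hΦ hΦ0 h2]; simp
  · exact (hC t ⟨ht, (not_le.mp h2).le⟩).trans (le_max_left _ _)

/-- Differentiation of a radial average in the radius. -/
theorem hasDerivAt_cr (hΦ : ContDiff ℝ 1 Φ) (hΦ0 : ∀ t, 2 ≤ t → Φ t = 0) (hg : Continuous g)
    {R : ℝ} (hR : 0 < R) :
    HasDerivAt (fun R => ∫ x, cr Φ R x * g x)
      (∫ x, deriv Φ (rho Finset.univ x / R ^ 2) * (-2 * rho Finset.univ x / R ^ 3) * g x) R := by
  obtain ⟨C, hC0, hC⟩ := exists_deriv_bound hΦ hΦ0
  set K : Set (Fin n → ℝ) := {x | rho Finset.univ x ≤ 8 * R ^ 2} with hK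
  have hKc : IsCompact K := isCompact_rho_le _
  have hKm : MeasurableSet K := hKc.isClosed.measurableSet
  set B : (Fin n → ℝ) → ℝ := K.indicator (fun x => C * (2 * (8 * R ^ 2) / (R / 2) ^ 3) * |g x|)
    with hB
  have hBi : Integrable B := by
    rw [hB, integrable_indicator_iff hKm]
    exact (continuous_const.mul hg.abs).continuousOn.integrableOn_compact hKc
  have hs : Metric.ball R (R / 2) ∈ 𝓝 R := Metric.ball_mem_nhds R (by positivity)
  have hpos : ∀ r ∈ Metric.ball R (R / 2), R / 2 < r ∧ r < 2 * R := by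
    intro r hr
    rw [Metric.mem_ball, Real.dist_eq, abs_lt] at hr
    constructor <;> linarith [hr.1, hr.2]
  have hcont : ∀ r, Continuous (fun x : Fin n → ℝ => cr Φ r x * g x) := fun r =>
    (cr_contDiff hΦ r).continuous.mul hg
  have hrc : Continuous (rho (n := n) Finset.univ) := (rho_contDiff (k := 0) _).continuous
  have hdc : Continuous (deriv Φ) := hΦ.continuous_deriv (by norm_num)
  have key := hasDerivAt_integral_of_dominated_loc_of_deriv_le (μ := volume)
    (F := fun (r : ℝ) (x : Fin n → ℝ) => cr Φ r x * g x)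
    (F' := fun r x => deriv Φ (rho Finset.univ x / r ^ 2) * (-2 * rho Finset.univ x / r ^ 3) * g x)
    (x₀ := R) (s := Metric.ball R (R / 2)) (bound := B) hs
    (Eventually.of_forall fun r => (hcont r).aestronglyMeasurable)
    ((hcont R).integrable_of_hasCompactSupport ((cr_hasCompactSupport hΦ0 hR).mul_right))
    (by
      apply Continuous.aestronglyMeasurable
      exact ((hdc.comp (hrc.div_const _)).mul ((continuous_const.mul hrc).div_const _)).mul hg)
    (by
      refine Eventually.of_forall fun x r hr => ?_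
      obtain ⟨hr1, hr2⟩ := hpos r hr
      have hr0 : 0 < r := lt_trans (by positivity) hr1
      by_cases hx : rho Finset.univ x ≤ 8 * R ^ 2
      · rw [hB, Set.indicator_of_mem (show x ∈ K from hx)]
        rw [norm_mul, norm_mul, Real.norm_eq_abs, Real.norm_eq_abs, Real.norm_eq_abs]
        have h1 : |deriv Φ (rho Finset.univ x / r ^ 2)| ≤ C :=
          hC _ (div_nonneg (rho_nonneg _ _) (by positivity))
        have h2 : |-2 * rho Finset.univ x / r ^ 3| ≤ 2 * (8 * R ^ 2) / (R / 2) ^ 3 := by
          rw [abs_div, abs_of_pos (show 0 < r ^ 3 by positivity), abs_mul]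
          have e : |(-2:ℝ)| = 2 := by norm_num
          rw [e, abs_of_nonneg (rho_nonneg _ x)]
          have h3 : (R / 2) ^ 3 ≤ r ^ 3 := by
            apply pow_le_pow_left₀ (by positivity) hr1.le
          have h4 : 2 * rho Finset.univ x ≤ 2 * (8 * R ^ 2) := by linarith
          exact div_le_div₀ (by positivity) h4 (by positivity) h3
        exact mul_le_mul_of_nonneg_right (mul_le_mul h1 h2 (abs_nonneg _) hC0) (abs_nonneg _)
      · have h1 : 2 ≤ rho Finset.univ x / r ^ 2 := by
          rw [le_div_iff₀ (by positivity)]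
          have : r ^ 2 ≤ (2 * R) ^ 2 := pow_le_pow_left₀ hr0.le hr2.le 2
          nlinarith [not_le.mp hx]
        rw [deriv_zero_of_ge hΦ hΦ0 h1]
        simp only [zero_mul, norm_zero]
        rw [hB]
        apply Set.indicator_nonneg
        intro y _
        positivity)
    hBi
    (by
      refine Eventually.of_forall fun x r hr => ?_
      obtain ⟨hr1, hr2⟩ := hpos r hr
      have hr0 : 0 < r := lt_trans (by positivity) hr1
      have h1 : HasDerivAt (fun r : ℝ => rho Finset.univ x / r ^ 2)
          (-2 * rho Finset.univ x / r ^ 3) r := by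
        have h2 : HasDerivAt (fun r : ℝ => r ^ 2) (2 * r) r := by
          simpa using hasDerivAt_pow 2 r
        have h3 := (hasDerivAt_const r (rho Finset.univ x)).fun_div h2 (by positivity)
        refine h3.congr_deriv ?_
        field_simp
        ring
      have h4 : HasDerivAt Φ (deriv Φ (rho Finset.univ x / r ^ 2)) (rho Finset.univ x / r ^ 2) :=
        (hΦ.differentiable (by norm_num) _).hasDerivAt
      exact (h4.comp r h1).mul_const (g x))
  exact key.2

/-- The test of the stress tensor with the field `h Φ(|x|²/R²) x`. -/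
theorem stress_radial (hu : Sol u) (hΦ : ContDiff ℝ 1 Φ) (hΦ0 : ∀ t, 2 ≤ t → Φ t = 0)
    (hh : ContDiff ℝ 1 h) {R : ℝ} (hR : 0 < R) :
    ∫ x, cr Φ R x * (h x * ((n - 1) * en u x + defi u x / 2))
      = ∫ x, (cr Φ R x * (sx u x * (∑ i, pd i u x * pd i h x) - en u x * ∑ i, x i * pd i h x)
        + 2 / R ^ 2 * (deriv Φ (rho Finset.univ x / R ^ 2)
          * (h x * (sx u x ^ 2 - rho Finset.univ x * en u x)))) := by
  have cphi := cr_contDiff (n := n) hΦ R
  have sphi := cr_hasCompactSupport (n := n) hΦ0 hR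
  set X : Fin n → (Fin n → ℝ) → ℝ := fun j x => cr Φ R x * (h x * x j) with hXdef
  have hX : ∀ j, ContDiff ℝ 1 (X j) := fun j => cphi.mul (hh.mul (contDiff_apply ℝ ℝ j))
  have hXc : ∀ j, HasCompactSupport (X j) := fun j => sphi.mul_right
  have hpX : ∀ i j x, pd i (X j) x = cr Φ R x * (h x * (if j = i then 1 else 0) + x j * pd i h x)
      + (h x * x j) * (deriv Φ (rho Finset.univ x / R ^ 2) * (2 * x i / R ^ 2)) := by
    intro i j x
    have d1 : DifferentiableAt ℝ (cr Φ R) x := cphi.differentiable (by norm_num) x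
    have d2 : DifferentiableAt ℝ h x := hh.differentiable (by norm_num) x
    have d3 : DifferentiableAt ℝ (fun y : Fin n → ℝ => y j) x := by fun_prop
    rw [hXdef]
    simp only
    have d4 : DifferentiableAt ℝ (fun y : Fin n → ℝ => h y * y j) x := d2.fun_mul d3
    rw [pd_mul (g := fun y : Fin n → ℝ => h y * y j) d1 d4,
      pd_mul (f := h) (g := fun y : Fin n → ℝ => y j) d2 d3, pd_coord, pd_cr hΦ]
  have hsum := Finset.sum_congr rfl fun j (_ : j ∈ Finset.univ) => stress_comp hu j (hX j) (hXc j)
  have cpu : ∀ j, Continuous (pd j u) := fun j => (contDiff_pd_one hu.c2).continuous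
  have cpX : ∀ i j, Continuous (pd i (X j)) := fun i j => continuous_pd (hX j)
  have i1 : ∀ j, Integrable (fun x => pd j u x * ∑ i, pd i u x * pd i (X j) x) := by
    intro j
    apply Continuous.integrable_of_hasCompactSupport
    · exact (cpu j).mul (continuous_finsetSum _ fun i _ => (cpu i).mul (cpX i j))
    · apply HasCompactSupport.mul_left
      apply HasCompactSupport.intro (hXc j)
      intro x hx
      apply Finset.sum_eq_zero
      intro i _
      rw [pd_eq_zero_of_notMem_tsupport hx, mul_zero]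
  have i2 : ∀ j, Integrable (fun x => en u x * pd j (X j) x) := by
    intro j
    apply Continuous.integrable_of_hasCompactSupport
    · exact (en_contDiff hu.c2).continuous.mul (cpX j j)
    · exact (hasCompactSupport_pd (hXc j)).mul_left
  rw [← integral_finset_sum _ (fun j _ => i1 j), ← integral_finset_sum _ (fun j _ => i2 j)] at hsum
  have hrc : Continuous (rho (n := n) Finset.univ) := (rho_contDiff (k := 0) _).continuous
  have hdc : Continuous (deriv Φ) := hΦ.continuous_deriv (by norm_num)
  have csx := sx_continuous (u := u) (hu.c2.of_le (by norm_num))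
  have cen := (en_contDiff hu.c2).continuous
  have cph : ∀ j, Continuous (pd j h) := fun j => continuous_pd hh
  have hz : ∀ x : Fin n → ℝ, x ∉ {x : Fin n → ℝ | rho Finset.univ x ≤ 2 * R ^ 2} →
      cr Φ R x = 0 ∧ deriv Φ (rho Finset.univ x / R ^ 2) = 0 := by
    intro x hx
    have : 2 ≤ rho Finset.univ x / R ^ 2 := by
      rw [le_div_iff₀ (by positivity)]
      simp only [Set.mem_setOf_eq, not_le] at hx
      exact hx.le
    exact ⟨hΦ0 _ this, deriv_zero_of_ge hΦ hΦ0 this⟩
  have i3 : Integrable (fun x => cr Φ R x * (h x * ((n - 1) * en u x + defi u x / 2))) := by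
    apply Continuous.integrable_of_hasCompactSupport
    · exact cphi.continuous.mul (hh.continuous.mul ((continuous_const.mul cen).add
        (hu.defi_continuous.div_const 2)))
    · exact sphi.mul_right
  have i4 : Integrable (fun x => (cr Φ R x * (sx u x * (∑ i, pd i u x * pd i h x)
        - en u x * ∑ i, x i * pd i h x)
        + 2 / R ^ 2 * (deriv Φ (rho Finset.univ x / R ^ 2)
          * (h x * (sx u x ^ 2 - rho Finset.univ x * en u x))))) := by
    apply Continuous.integrable_of_hasCompactSupport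
    · have c1 : Continuous (fun x => ∑ i, pd i u x * pd i h x) :=
        continuous_finsetSum _ fun i _ => (cpu i).mul (cph i)
      have c2 : Continuous (fun x => ∑ i, x i * pd i h x) :=
        continuous_finsetSum _ fun i _ => (continuous_apply i).mul (cph i)
      have c3 : Continuous (fun x : Fin n → ℝ => deriv Φ (rho Finset.univ x / R ^ 2)) :=
        hdc.comp (hrc.div_const _)
      exact (cphi.continuous.mul ((csx.mul c1).sub (cen.mul c2))).add
        (continuous_const.mul (c3.mul (hh.continuous.mul ((csx.pow 2).sub (hrc.mul cen)))))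
    · apply HasCompactSupport.intro (isCompact_rho_le (2 * R ^ 2))
      intro x hx
      obtain ⟨h1, h2⟩ := hz x hx
      rw [h1, h2]; simp
  have e1 : ∀ x : Fin n → ℝ, (∑ j, pd j u x * ∑ i, pd i u x * pd i (X j) x)
      = cr Φ R x * (h x * (∑ j, pd j u x ^ 2) + sx u x * (∑ i, pd i u x * pd i h x))
        + 2 / R ^ 2 * (deriv Φ (rho Finset.univ x / R ^ 2) * (h x * sx u x ^ 2)) := by
    intro x
    have e2 : ∀ j, ∑ i, pd i u x * pd i (X j) x = cr Φ R x * (h x * pd j u x
        + x j * ∑ i, pd i u x * pd i h x)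
        + 2 / R ^ 2 * (deriv Φ (rho Finset.univ x / R ^ 2) * (h x * (x j * sx u x))) := by
      intro j
      simp_rw [hpX]
      unfold sx
      have e3 : ∑ i, pd i u x * (cr Φ R x * (h x * (if j = i then 1 else 0) + x j * pd i h x)
        + (h x * x j) * (deriv Φ (rho Finset.univ x / R ^ 2) * (2 * x i / R ^ 2)))
        = cr Φ R x * h x * (∑ i, pd i u x * (if j = i then 1 else 0))
          + cr Φ R x * x j * (∑ i, pd i u x * pd i h x)
          + (h x * x j) * deriv Φ (rho Finset.univ x / R ^ 2) * (2 / R ^ 2)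
            * ∑ i, x i * pd i u x := by
        rw [Finset.mul_sum, Finset.mul_sum, Finset.mul_sum, ← Finset.sum_add_distrib,
          ← Finset.sum_add_distrib]
        apply Finset.sum_congr rfl; intro i _; ring
      rw [e3]
      have e4 : ∑ i, pd i u x * (if j = i then 1 else 0) = pd j u x := by
        simp [Finset.sum_ite_eq]
      rw [e4]; ring
    simp_rw [e2]
    unfold sx
    have : ∑ j, pd j u x * (cr Φ R x * (h x * pd j u x
        + x j * ∑ i, pd i u x * pd i h x)
        + 2 / R ^ 2 * (deriv Φ (rho Finset.univ x / R ^ 2)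
          * (h x * (x j * ∑ i, x i * pd i u x))))
        = cr Φ R x * (h x * (∑ j, pd j u x ^ 2)
          + (∑ j, x j * pd j u x) * (∑ i, pd i u x * pd i h x))
        + 2 / R ^ 2 * (deriv Φ (rho Finset.univ x / R ^ 2)
          * (h x * ((∑ j, x j * pd j u x) * (∑ j, x j * pd j u x)))) := by
      rw [Finset.mul_sum (s := Finset.univ) (f := fun j => pd j u x ^ 2),
        Finset.sum_mul Finset.univ (fun j => x j * pd j u x)
          (∑ i, pd i u x * pd i h x), ← Finset.sum_add_distrib, Finset.mul_sum]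
      have e5 : (∑ j, x j * pd j u x) * (∑ j, x j * pd j u x)
          = ∑ j, (x j * pd j u x) * (∑ j, x j * pd j u x) := Finset.sum_mul _ _ _
      rw [e5, Finset.mul_sum, Finset.mul_sum, Finset.mul_sum, ← Finset.sum_add_distrib]
      apply Finset.sum_congr rfl; intro i _; ring
    rw [this]; ring
  have e6 : ∀ x : Fin n → ℝ, (∑ j, en u x * pd j (X j) x)
      = cr Φ R x * (n * (h x * en u x) + en u x * ∑ i, x i * pd i h x)
        + 2 / R ^ 2 * (deriv Φ (rho Finset.univ x / R ^ 2)
          * (h x * (rho Finset.univ x * en u x))) := by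
    intro x
    simp_rw [hpX]
    unfold rho
    simp only [if_true]
    have : ∑ j, en u x * (cr Φ R x * (h x * 1 + x j * pd j h x)
        + (h x * x j) * (deriv Φ ((∑ i, x i ^ 2) / R ^ 2) * (2 * x j / R ^ 2)))
        = ∑ j : Fin n, en u x * (cr Φ R x * h x)
          + (en u x * cr Φ R x * ∑ j, x j * pd j h x
          + en u x * h x * deriv Φ ((∑ i, x i ^ 2) / R ^ 2) * (2 / R ^ 2) * ∑ j, x j ^ 2) := by
      rw [Finset.mul_sum, Finset.mul_sum, ← Finset.sum_add_distrib, ← Finset.sum_add_distrib]
      apply Finset.sum_congr rfl; intro i _; ring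
    rw [this]
    simp only [Finset.sum_const, Finset.card_univ, Fintype.card_fin, nsmul_eq_mul]
    ring
  simp_rw [e1, e6] at hsum
  have e7 : ∀ x : Fin n → ℝ, ∑ j, pd j u x ^ 2 = en u x - defi u x / 2 := by
    intro x; unfold en defi psi; ring
  simp_rw [e7] at hsum
  have i5 : Integrable (fun x : Fin n → ℝ =>
      cr Φ R x * (h x * (en u x - defi u x / 2) + sx u x * (∑ i, pd i u x * pd i h x))
        + 2 / R ^ 2 * (deriv Φ (rho Finset.univ x / R ^ 2) * (h x * sx u x ^ 2))) := by
    have := integrable_finset_sum Finset.univ (fun j _ => i1 j)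
    refine this.congr (Eventually.of_forall fun x => ?_)
    simp only
    rw [e1, e7]
  have i6 : Integrable (fun x : Fin n → ℝ =>
      cr Φ R x * (n * (h x * en u x) + en u x * ∑ i, x i * pd i h x)
        + 2 / R ^ 2 * (deriv Φ (rho Finset.univ x / R ^ 2)
          * (h x * (rho Finset.univ x * en u x)))) := by
    have := integrable_finset_sum Finset.univ (fun j _ => i2 j)
    refine this.congr (Eventually.of_forall fun x => ?_)
    simp only
    rw [e6]
  have h7 := integral_sub i5 i6
  rw [hsum, sub_self] at h7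
  have h8 := integral_sub i4 i3
  have h9 : (∫ x, cr Φ R x * (h x * ((n - 1) * en u x + defi u x / 2)))
      = (∫ x, (cr Φ R x * (sx u x * (∑ i, pd i u x * pd i h x) - en u x * ∑ i, x i * pd i h x)
        + 2 / R ^ 2 * (deriv Φ (rho Finset.univ x / R ^ 2)
          * (h x * (sx u x ^ 2 - rho Finset.univ x * en u x)))))
        - ∫ x, ((cr Φ R x * (sx u x * (∑ i, pd i u x * pd i h x) - en u x * ∑ i, x i * pd i h x)
        + 2 / R ^ 2 * (deriv Φ (rho Finset.univ x / R ^ 2)
          * (h x * (sx u x ^ 2 - rho Finset.univ x * en u x))))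
          - cr Φ R x * (h x * ((n - 1) * en u x + defi u x / 2))) := by
    rw [h8]; ring
  rw [h9]
  have h10 : ∫ x, ((cr Φ R x * (sx u x * (∑ i, pd i u x * pd i h x)
        - en u x * ∑ i, x i * pd i h x)
        + 2 / R ^ 2 * (deriv Φ (rho Finset.univ x / R ^ 2)
          * (h x * (sx u x ^ 2 - rho Finset.univ x * en u x))))
          - cr Φ R x * (h x * ((n - 1) * en u x + defi u x / 2))) = 0 := by
    rw [← h7]
    apply integral_congr_ae
    refine Eventually.of_forall fun x => ?_
    simp only
    ring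
  rw [h10, sub_zero]

/-- The weighted, rescaled energy. -/
noncomputable def Mh (u h : (Fin n → ℝ) → ℝ) (Φ : ℝ → ℝ) (R : ℝ) : ℝ :=
  (∫ x, cr Φ R x * (h x * en u x)) / R ^ (n - 1)

/-- The derivative of the weighted, rescaled energy (times `R^n`). -/
noncomputable def dMh (u h : (Fin n → ℝ) → ℝ) (Φ : ℝ → ℝ) (R : ℝ) : ℝ :=
  ∫ x, (cr Φ R x * (h x * (defi u x / 2))
    - 2 / R ^ 2 * (deriv Φ (rho Finset.univ x / R ^ 2) * (h x * sx u x ^ 2))
    + cr Φ R x * (en u x * (∑ i, x i * pd i h x) - sx u x * (∑ i, pd i u x * pd i h x)))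

/-- Mean value formula, centre `0`. -/
theorem hasDerivAt_Mh (hn : 0 < n) (hu : Sol u) (hΦ : ContDiff ℝ 1 Φ)
    (hΦ0 : ∀ t, 2 ≤ t → Φ t = 0) (hh : ContDiff ℝ 1 h) {R : ℝ} (hR : 0 < R) :
    HasDerivAt (Mh u h Φ) (dMh u h Φ R / R ^ n) R := by
  have hg : Continuous (fun x => h x * en u x) := hh.continuous.mul (en_contDiff hu.c2).continuous
  have hd := hasDerivAt_cr hΦ hΦ0 hg hR
  obtain ⟨k, rfl⟩ : ∃ k, n = k + 1 := ⟨n - 1, by omega⟩
  have hp : HasDerivAt (fun R : ℝ => R ^ (k + 1 - 1)) (k * R ^ (k - 1)) R := by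
    simpa using hasDerivAt_pow k R
  have hq := hd.fun_div hp (by positivity)
  unfold Mh
  refine hq.congr_deriv ?_
  have cphi := cr_contDiff (n := k + 1) hΦ R
  have sphi := cr_hasCompactSupport (n := k + 1) hΦ0 hR
  have cpu : ∀ j, Continuous (pd j u) := fun j => (contDiff_pd_one hu.c2).continuous
  have hrc : Continuous (rho (n := k + 1) Finset.univ) := (rho_contDiff (k := 0) _).continuous
  have hdc : Continuous (deriv Φ) := hΦ.continuous_deriv (by norm_num)
  have csx := sx_continuous (u := u) (hu.c2.of_le (by norm_num))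
  have cen := (en_contDiff hu.c2).continuous
  have cph : ∀ j, Continuous (pd j h) := fun j => continuous_pd hh
  have c1 : Continuous (fun x => ∑ i, pd i u x * pd i h x) :=
    continuous_finsetSum _ fun i _ => (cpu i).mul (cph i)
  have c2 : Continuous (fun x : Fin (k + 1) → ℝ => ∑ i, x i * pd i h x) :=
    continuous_finsetSum _ fun i _ => (continuous_apply i).mul (cph i)
  have c3 : Continuous (fun x : Fin (k + 1) → ℝ => deriv Φ (rho Finset.univ x / R ^ 2)) :=
    hdc.comp (hrc.div_const _)
  have hz : ∀ x : Fin (k + 1) → ℝ, x ∉ {x : Fin (k + 1) → ℝ | rho Finset.univ x ≤ 2 * R ^ 2} →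
      cr Φ R x = 0 ∧ deriv Φ (rho Finset.univ x / R ^ 2) = 0 := by
    intro x hx
    have : 2 ≤ rho Finset.univ x / R ^ 2 := by
      rw [le_div_iff₀ (by positivity)]
      simp only [Set.mem_setOf_eq, not_le] at hx
      exact hx.le
    exact ⟨hΦ0 _ this, deriv_zero_of_ge hΦ hΦ0 this⟩
  set A : ℝ := ∫ x, cr Φ R x * (h x * en u x) with hA
  set B : ℝ := ∫ x, deriv Φ (rho Finset.univ x / R ^ 2) * (-2 * rho Finset.univ x / R ^ 3)
    * (h x * en u x) with hB
  have key : R * B - k * A = dMh u h Φ R := by
    have hst := stress_radial (u := u) (h := h) hu hΦ hΦ0 hh hR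
    have iA : Integrable (fun x => cr Φ R x * (h x * en u x)) :=
      (cphi.continuous.mul hg).integrable_of_hasCompactSupport sphi.mul_right
    have iB : Integrable (fun x => deriv Φ (rho Finset.univ x / R ^ 2)
        * (-2 * rho Finset.univ x / R ^ 3) * (h x * en u x)) := by
      apply Continuous.integrable_of_hasCompactSupport
      · exact (c3.mul ((continuous_const.mul hrc).div_const _)).mul hg
      · apply HasCompactSupport.intro (isCompact_rho_le (2 * R ^ 2))
        intro x hx
        rw [(hz x hx).2]; simp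
    have iD : Integrable (fun x => cr Φ R x * (h x * (defi u x / 2))
        - 2 / R ^ 2 * (deriv Φ (rho Finset.univ x / R ^ 2) * (h x * sx u x ^ 2))
        + cr Φ R x * (en u x * (∑ i, x i * pd i h x) - sx u x * (∑ i, pd i u x * pd i h x))) := by
      apply Continuous.integrable_of_hasCompactSupport
      · exact ((cphi.continuous.mul (hh.continuous.mul (hu.defi_continuous.div_const 2))).sub
          (continuous_const.mul (c3.mul (hh.continuous.mul (csx.pow 2))))).add
          (cphi.continuous.mul ((cen.mul c2).sub (csx.mul c1)))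
      · apply HasCompactSupport.intro (isCompact_rho_le (2 * R ^ 2))
        intro x hx
        rw [(hz x hx).1, (hz x hx).2]; simp
    have i3 : Integrable (fun x => cr Φ R x * (h x * (((k + 1 : ℕ) - 1) * en u x + defi u x / 2))) := by
      apply Continuous.integrable_of_hasCompactSupport
      · exact cphi.continuous.mul (hh.continuous.mul ((continuous_const.mul cen).add
          (hu.defi_continuous.div_const 2)))
      · exact sphi.mul_right
    have i4 : Integrable (fun x => (cr Φ R x * (sx u x * (∑ i, pd i u x * pd i h x)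
        - en u x * ∑ i, x i * pd i h x)
        + 2 / R ^ 2 * (deriv Φ (rho Finset.univ x / R ^ 2)
          * (h x * (sx u x ^ 2 - rho Finset.univ x * en u x))))) := by
      apply Continuous.integrable_of_hasCompactSupport
      · exact (cphi.continuous.mul ((csx.mul c1).sub (cen.mul c2))).add
          (continuous_const.mul (c3.mul (hh.continuous.mul ((csx.pow 2).sub (hrc.mul cen)))))
      · apply HasCompactSupport.intro (isCompact_rho_le (2 * R ^ 2))
        intro x hx
        rw [(hz x hx).1, (hz x hx).2]; simp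
    have h0 : (∫ x, cr Φ R x * (h x * (((k + 1 : ℕ) - 1) * en u x + defi u x / 2)))
        - (∫ x, (cr Φ R x * (sx u x * (∑ i, pd i u x * pd i h x)
          - en u x * ∑ i, x i * pd i h x)
          + 2 / R ^ 2 * (deriv Φ (rho Finset.univ x / R ^ 2)
            * (h x * (sx u x ^ 2 - rho Finset.univ x * en u x))))) = 0 := by
      rw [hst]; ring
    have h1 : R * B - k * A = R * B - k * A
        + ((∫ x, cr Φ R x * (h x * (((k + 1 : ℕ) - 1) * en u x + defi u x / 2)))
        - (∫ x, (cr Φ R x * (sx u x * (∑ i, pd i u x * pd i h x)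
          - en u x * ∑ i, x i * pd i h x)
          + 2 / R ^ 2 * (deriv Φ (rho Finset.univ x / R ^ 2)
            * (h x * (sx u x ^ 2 - rho Finset.univ x * en u x)))))) := by rw [h0]; ring
    have i5 : Integrable (fun x => R * (deriv Φ (rho Finset.univ x / R ^ 2)
        * (-2 * rho Finset.univ x / R ^ 3) * (h x * en u x)) - k * (cr Φ R x * (h x * en u x))) :=
      (iB.const_mul R).sub (iA.const_mul _)
    have i6 : Integrable (fun x => cr Φ R x * (h x * (((k + 1 : ℕ) - 1) * en u x + defi u x / 2))
        - (cr Φ R x * (sx u x * (∑ i, pd i u x * pd i h x)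
          - en u x * ∑ i, x i * pd i h x)
          + 2 / R ^ 2 * (deriv Φ (rho Finset.univ x / R ^ 2)
            * (h x * (sx u x ^ 2 - rho Finset.univ x * en u x))))) := i3.sub i4
    rw [h1, hA, hB, ← integral_const_mul, ← integral_const_mul, ← integral_sub (iB.const_mul R)
      (iA.const_mul _), ← integral_sub i3 i4, ← integral_add i5 i6]
    unfold dMh
    apply integral_congr_ae
    refine Eventually.of_forall fun x => ?_
    simp only [Pi.sub_apply]
    push_cast
    field_simp
    ring
  rw [← key]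
  have e : k + 1 - 1 = k := by omega
  rw [e]
  by_cases hk : k = 0
  · subst hk
    simp
    field_simp
  · have e2 : R ^ k = R ^ (k - 1) * R := by
      rw [← pow_succ]; congr 1; omega
    have e3 : R ^ (k + 1) = R ^ (k - 1) * R * R := by
      rw [pow_succ, e2]
    rw [e3, e2]
    field_simp

end Vale.Agent.P134.H919
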