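import Vale.Agent.P134.H919.CDX

set_option linter.all false

/-! S-B: conclusion. -/

open MeasureTheory Filter Topology

namespace Vale.Agent.P134.H919

open Vale.Agent.P134 Vale.Agent.P134.SM Vale.Agent.P134.LI
open Vale.Agent.P134.H147 (g1_pos hasDerivAt_g1 g1_le)
open Vale.Agent.P134.H586 (qq_nonneg qq_le_one)

variable {u : R3 → ℝ} {x : R3} {ε κ t : ℝ}

/-- S-B, with the order of the quantifiers needed for the tube depth: `δ0` may depend on `ε`. -/
def StCDX' : Prop := ∀ s3 μ : ℝ, 0 < s3 → 0 < μ → ∃ C : ℝ, 0 < C ∧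
  ∀ ε : ℝ, 0 < ε → ∃ δ0 : ℝ, 0 < δ0 ∧ ∀ κ : ℝ, 0 < κ →
  ∀ u : R3 → ℝ, Sol u → (∀ x, |u x| < 1) →
  (∀ x, |phi u x| ≤ s3 → qq u x ≤ δ0 → ∀ t, |t| ≤ dep ε κ u x + 1 →
    1 / 2 < rr u x ∧ 1 - μ ≤ jj u x t ∧ jj u x t ≤ 1 + μ) ∧
  (∀ E : R3 → ℝ, ContDiff ℝ 1 E → ∀ χ : R3 → ℝ, Continuous χ → (∀ y, 0 ≤ χ y ∧ χ y ≤ 1) →
    ∀ x, |phi u x| ≤ s3 → qq u x ≤ δ0 →
    ∫ t, χ (xt u x t) * (esq (cdx u (fun z => E z.1 * prf ε κ u z.1 z.2) (x, t)) / jj u x t)
      ≤ (1 + μ) * gs E x * (∫ t, χ (xt u x t) * prf ε κ u x t ^ 2)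
        + C * ε * (qq u x + κ ^ 2) * E x ^ 2) ∧
  (∀ E : R3 → ℝ, ContDiff ℝ 1 E → ∀ x, |phi u x| ≤ s3 → qq u x ≤ δ0 →
    ∀ t, Real.sqrt (esq (cdx u (fun z => (E z.1 * prf ε κ u z.1 z.2) ^ 2) (x, t)))
      ≤ C * |E x| * Real.sqrt (gs E x) * prf ε κ u x t ^ 2
        + (if dep ε κ u x ≤ |t| ∧ |t| ≤ dep ε κ u x + 1 then C * ε * (qq u x + κ ^ 2) * E x ^ 2
            else 0))

lemma prf_zero (h : dep ε κ u x + 1 ≤ |t|) : prf ε κ u x t = 0 := by
  unfold prf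
  rw [zt_eq, th_zero (by linarith), mul_zero]

/-- Size of the cut-off part. -/
lemma cut_le (hu : Sol u) (h1 : ∀ x, |u x| < 1) (hε : 0 < ε) (hκ : 0 < κ) {s3 S : ℝ}
    (hS : ∀ t, |deriv th t| ≤ S) (hx : |phi u x| ≤ s3) (t : ℝ) :
    g1 (phi u x + t) ^ 2 * |deriv th (|t| - dep ε κ u x + 1)|
      ≤ (if dep ε κ u x ≤ |t| ∧ |t| ≤ dep ε κ u x + 1 then
        8 * Real.exp (2 * √2 * s3) * S * (ε * (qq u x + κ ^ 2)) else 0) := by
  have hq := qq_nonneg hu h1 x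
  have hS0 : 0 ≤ S := (abs_nonneg _).trans (hS 0)
  split_ifs with h
  · have h2 := g1_sq_le hu h1 hε hκ hx h.1
    calc _ ≤ 8 * Real.exp (2 * √2 * s3) * (ε * (qq u x + κ ^ 2)) * S :=
          mul_le_mul h2 (hS _) (abs_nonneg _) (by positivity)
      _ = _ := by ring
  · have h3 : deriv th (|t| - dep ε κ u x + 1) = 0 := by
      rcases not_and_or.mp h with h4 | h4
      · exact th_deriv_of_lt (by linarith [not_le.mp h4])
      · exact th_deriv_of_gt (by linarith [not_le.mp h4])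
    rw [h3]; simp

/-- Core estimate. -/
lemma cdx_sq_le (hu : Sol u) (h1 : ∀ x, |u x| < 1) (hε : 0 < ε) (hκ : 0 < κ) {E : R3 → ℝ}
    (hE : ContDiff ℝ 1 E) (h : 0 < gs (phi u) x) {M b θ : ℝ} (hM : 0 ≤ M) (hb : 0 ≤ b)
    (hb1 : b ≤ 1) (hθ : 0 < θ) (hEc : ∀ i j, |t * (hh u x * pt u i j x - aa u i j x)| ≤ b)
    (hd : ∀ j, |pd j (dep ε κ u) x| ≤ M) :
    esq (cdx u (fun z => E z.1 * prf ε κ u z.1 z.2) (x, t))
      ≤ (1 + θ) * (1 + 15 * b) * gs E x * prf ε κ u x t ^ 2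
        + (1 + 1 / θ) * (1 + 15 * b) * (3 * M ^ 2)
          * (E x * g1 (phi u x + t) * -(deriv th (|t| - dep ε κ u x + 1))) ^ 2 := by
  have hn : ∑ i, nn u x i ^ 2 = 1 := sum_nu_sq h
  set a := prf ε κ u x t with ha
  set c := E x * g1 (phi u x + t) * -(deriv th (|t| - dep ε κ u x + 1)) with hc
  have hcc : ∀ i j, cc u i j x t = pt u i j x + t * (hh u x * pt u i j x - aa u i j x) :=
    fun i j => rfl
  have m1 := mat_le (n := nn u x) (v := fun j => pd j E x) (P := fun i j => pt u i j x)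
    (E := fun i j => t * (hh u x * pt u i j x - aa u i j x)) hb hb1 hn (fun i j => rfl) hEc
  have m2 := mat_le (n := nn u x) (v := fun j => pd j (dep ε κ u) x) (P := fun i j => pt u i j x)
    (E := fun i j => t * (hh u x * pt u i j x - aa u i j x)) hb hb1 hn (fun i j => rfl) hEc
  have e1 : esq (fun j => pd j E x) = gs E x := rfl
  have e2 : esq (fun j => pd j (dep ε κ u) x) ≤ 3 * M ^ 2 := by
    calc ∑ j, pd j (dep ε κ u) x ^ 2 ≤ ∑ j : Fin 3, M ^ 2 := by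
          refine Finset.sum_le_sum fun j _ => ?_
          rw [← sq_abs]
          exact pow_le_pow_left₀ (abs_nonneg _) (hd j) 2
      _ = _ := by simp
  rw [e1] at m1
  simp only [← hcc] at m1 m2
  have m3 : ∑ i, (∑ j, cc u i j x t * pd j (dep ε κ u) x) ^ 2 ≤ (1 + 15 * b) * (3 * M ^ 2) :=
    m2.trans (mul_le_mul_of_nonneg_left e2 (by positivity))
  have e3 : ∀ i, (cdx u (fun z => E z.1 * prf ε κ u z.1 z.2) (x, t) i) ^ 2
      ≤ (1 + θ) * (a ^ 2 * (∑ j, cc u i j x t * pd j E x) ^ 2)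
        + (1 + 1 / θ) * (c ^ 2 * (∑ j, cc u i j x t * pd j (dep ε κ u) x) ^ 2) := by
    intro i
    rw [cdx_eq hu h1 hε hκ hE h t i]
    set p := ∑ j, cc u i j x t * pd j E x
    set r := ∑ j, cc u i j x t * pd j (dep ε κ u) x
    have h2 : (1 + θ) * (a ^ 2 * p ^ 2) + (1 + 1 / θ) * (c ^ 2 * r ^ 2) - (a * p + c * r) ^ 2
        = (θ * (a * p) - c * r) ^ 2 / θ := by
      field_simp
      ring
    have h3 : 0 ≤ (θ * (a * p) - c * r) ^ 2 / θ := by positivity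
    linarith
  calc esq (cdx u (fun z => E z.1 * prf ε κ u z.1 z.2) (x, t))
      ≤ ∑ i, ((1 + θ) * (a ^ 2 * (∑ j, cc u i j x t * pd j E x) ^ 2)
        + (1 + 1 / θ) * (c ^ 2 * (∑ j, cc u i j x t * pd j (dep ε κ u) x) ^ 2)) :=
        Finset.sum_le_sum fun i _ => e3 i
    _ = (1 + θ) * (a ^ 2 * ∑ i, (∑ j, cc u i j x t * pd j E x) ^ 2)
        + (1 + 1 / θ) * (c ^ 2 * ∑ i, (∑ j, cc u i j x t * pd j (dep ε κ u) x) ^ 2) := by
        rw [Finset.sum_add_distrib, ← Finset.mul_sum, ← Finset.mul_sum, ← Finset.mul_sum,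
          ← Finset.mul_sum]
    _ ≤ (1 + θ) * (a ^ 2 * ((1 + 15 * b) * gs E x))
        + (1 + 1 / θ) * (c ^ 2 * ((1 + 15 * b) * (3 * M ^ 2))) :=
        add_le_add
          (mul_le_mul_of_nonneg_left (mul_le_mul_of_nonneg_left m1 (sq_nonneg _)) (by positivity))
          (mul_le_mul_of_nonneg_left (mul_le_mul_of_nonneg_left m3 (sq_nonneg _)) (by positivity))
    _ = _ := by ring

lemma cdx_zero (hu : Sol u) (h1 : ∀ x, |u x| < 1) (hε : 0 < ε) (hκ : 0 < κ) {E : R3 → ℝ}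
    (hE : ContDiff ℝ 1 E) (h : 0 < gs (phi u) x) (ht : dep ε κ u x + 1 < |t|) :
    cdx u (fun z => E z.1 * prf ε κ u z.1 z.2) (x, t) = 0 := by
  funext i
  rw [cdx_eq hu h1 hε hκ hE h t i, prf_zero ht.le, th_deriv_of_gt (by linarith)]
  simp

lemma prf_diff (hu : Sol u) (h1 : ∀ x, |u x| < 1) (hε : 0 < ε) (hκ : 0 < κ) {E : R3 → ℝ}
    (hE : ContDiff ℝ 1 E) (x : R3) (t : ℝ) :
    DifferentiableAt ℝ (fun y => E y * prf ε κ u y t) x := by
  have dE : DifferentiableAt ℝ E x := hE.differentiable (by norm_num) x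
  have dφ : DifferentiableAt ℝ (phi u) x :=
    (H88.phi_contDiff hu h1 1).differentiable (by norm_num) x
  have dd := (pd_dep hu h1 hε hκ 0 x).1
  have dφt : DifferentiableAt ℝ (fun y => phi u y + t) x := dφ.add_const _
  have d1 : DifferentiableAt ℝ (fun y => g1 (phi u y + t)) x :=
    (hasDerivAt_g1 _).differentiableAt.comp x dφt
  have darg : DifferentiableAt ℝ (fun y => |t| - dep ε κ u y + 1) x := by fun_prop
  have dth : DifferentiableAt ℝ th (|t| - dep ε κ u x + 1) :=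
    th_contDiff.differentiable (by norm_num) _
  have e : (fun y => prf ε κ u y t) = fun y => g1 (phi u y + t) * th (|t| - dep ε κ u y + 1) := by
    funext y; unfold prf; rw [zt_eq]
  have d2 : DifferentiableAt ℝ (fun y => th (|t| - dep ε κ u y + 1)) x :=
    DifferentiableAt.comp (g := th) x dth darg
  have d3 : DifferentiableAt ℝ (fun y => prf ε κ u y t) x := by rw [e]; exact d1.mul d2
  exact dE.mul d3

lemma cdx_sq_eq (hu : Sol u) (h1 : ∀ x, |u x| < 1) (hε : 0 < ε) (hκ : 0 < κ) {E : R3 → ℝ}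
    (hE : ContDiff ℝ 1 E) (x : R3) (t : ℝ) (i : Fin 3) :
    cdx u (fun z => (E z.1 * prf ε κ u z.1 z.2) ^ 2) (x, t) i
      = 2 * (E x * prf ε κ u x t) * cdx u (fun z => E z.1 * prf ε κ u z.1 z.2) (x, t) i := by
  show ∑ j, cc u i j x t * pd j (fun y => (E y * prf ε κ u y t) ^ 2) x
    = 2 * (E x * prf ε κ u x t) * ∑ j, cc u i j x t * pd j (fun y => E y * prf ε κ u y t) x
  simp_rw [pd_sq (prf_diff hu h1 hε hκ hE x t)]
  rw [Finset.mul_sum]
  exact Finset.sum_congr rfl fun j _ => by ring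

lemma continuous_prf (ε κ : ℝ) (u : R3 → ℝ) (x : R3) : Continuous (prf ε κ u x) := by
  have h1 : Continuous g1 := continuous_iff_continuousAt.mpr fun s => (hasDerivAt_g1 s).continuousAt
  have h2 : Continuous th := th_contDiff.continuous
  have e : prf ε κ u x = fun t => g1 (phi u x + t) * th (|t| - dep ε κ u x + 1) := by
    funext t; unfold prf; rw [zt_eq]
  rw [e]
  exact (h1.comp (continuous_const.add continuous_id)).mul
    (h2.comp ((continuous_abs.sub continuous_const).add continuous_const))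

lemma continuous_xt (u : R3 → ℝ) (x : R3) : Continuous (fun t => xt u x t) := by
  unfold xt; fun_prop

lemma integrable_chi_prf {χ : R3 → ℝ} (hχ : Continuous χ) (ε κ : ℝ) (u : R3 → ℝ) (x : R3) :
    Integrable (fun t => χ (xt u x t) * prf ε κ u x t ^ 2) := by
  apply Continuous.integrable_of_hasCompactSupport
  · exact (hχ.comp (continuous_xt u x)).mul ((continuous_prf ε κ u x).pow 2)
  · apply HasCompactSupport.intro (isCompact_Icc (a := -(dep ε κ u x + 1)) (b := dep ε κ u x + 1))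
    intro t ht
    rw [Set.mem_Icc, ← abs_le, not_le] at ht
    rw [prf_zero ht.le]; simp


/-- Pointwise form on the tube. -/
lemma core_le (hu : Sol u) (h1 : ∀ x, |u x| < 1) (hε : 0 < ε) (hκ : 0 < κ) {s3 μ M S θ b : ℝ}
    (hM1 : 1 ≤ M) (hS : ∀ t, |deriv th t| ≤ S) (hθ : 0 < θ) (hθμ : 8 * θ ≤ μ) (hθ1 : θ ≤ 1 / 8)
    (hb0 : 0 ≤ b) (hb15 : 15 * b = θ) (hgs : 0 < gs (phi u) x) (hx : |phi u x| ≤ s3)
    (hdep : ∀ j, |pd j (dep ε κ u) x| ≤ M) (hJ1 : |jj u x t - 1| ≤ θ)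
    (hEc : ∀ i j, |t * (hh u x * pt u i j x - aa u i j x)| ≤ b)
    {E : R3 → ℝ} (hE : ContDiff ℝ 1 E) :
    esq (cdx u (fun z => E z.1 * prf ε κ u z.1 z.2) (x, t)) / jj u x t
      ≤ (1 + μ) * gs E x * prf ε κ u x t ^ 2
        + (if dep ε κ u x ≤ |t| ∧ |t| ≤ dep ε κ u x + 1 then
          ((1 + 1 / θ) * 2 * (3 * M ^ 2) * (S * (8 * Real.exp (2 * √2 * s3) * S)))
            * (ε * (qq u x + κ ^ 2)) * E x ^ 2 else 0) := by
  have hS0 : 0 ≤ S := (abs_nonneg _).trans (hS 0)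
  have hq0 := qq_nonneg hu h1 x
  have hgE : 0 ≤ gs E x := gs_nonneg _ _
  have hJ2 := abs_le.mp hJ1
  have hJp : 1 - θ ≤ jj u x t := by linarith
  have hJ0 : 0 < jj u x t := by linarith
  have h2 := cdx_sq_le hu h1 hε hκ hE hgs (by linarith : (0:ℝ) ≤ M) hb0 (by linarith) hθ hEc hdep
  rw [hb15] at h2
  rw [div_le_iff₀ hJ0]
  refine h2.trans ?_
  set D := |deriv th (|t| - dep ε κ u x + 1)| with hD
  have hD0 : 0 ≤ D := abs_nonneg _
  set G := g1 (phi u x + t) with hG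
  have hsq : (E x * G * -(deriv th (|t| - dep ε κ u x + 1))) ^ 2
      ≤ E x ^ 2 * (S * (G ^ 2 * D)) := by
    have h3 : D ≤ S := hS (|t| - dep ε κ u x + 1)
    calc _ = E x ^ 2 * (G ^ 2 * D) * D := by
          rw [mul_pow, mul_pow, neg_sq, ← sq_abs (deriv th _)]; ring
      _ ≤ E x ^ 2 * (G ^ 2 * D) * S := mul_le_mul_of_nonneg_left h3 (by positivity)
      _ = _ := by ring
  have hcut : G ^ 2 * D ≤ _ := cut_le hu h1 hε hκ hS hx t
  have hf1 : (1 + θ) * (1 + θ) * gs E x * prf ε κ u x t ^ 2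
      ≤ (1 + μ) * gs E x * prf ε κ u x t ^ 2 * jj u x t := by
    have h6 : (1 + 8 * θ) * (1 - θ) ≤ (1 + μ) * jj u x t :=
      mul_le_mul (by linarith) hJp (by linarith) (by linarith)
    have h7 : (1 + θ) * (1 + θ) ≤ (1 + 8 * θ) * (1 - θ) := by nlinarith only [hθ, hθ1]
    calc _ = (1 + θ) * (1 + θ) * (gs E x * prf ε κ u x t ^ 2) := by ring
      _ ≤ (1 + μ) * jj u x t * (gs E x * prf ε κ u x t ^ 2) :=
          mul_le_mul_of_nonneg_right (h7.trans h6) (by positivity)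
      _ = _ := by ring
  have h7 : 1 + θ ≤ 2 * jj u x t := by linarith
  have hf2 : (1 + 1 / θ) * (1 + θ) * (3 * M ^ 2)
      * (E x * G * -(deriv th (|t| - dep ε κ u x + 1))) ^ 2
      ≤ ((G ^ 2 * D) * (E x ^ 2 * ((1 + 1 / θ) * 2 * (3 * M ^ 2) * S))) * jj u x t := by
    calc _ ≤ (1 + 1 / θ) * (2 * jj u x t) * (3 * M ^ 2) * (E x ^ 2 * (S * (G ^ 2 * D))) := by
          apply mul_le_mul _ hsq (sq_nonneg _) (by positivity)
          apply mul_le_mul_of_nonneg_right _ (by positivity)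
          exact mul_le_mul_of_nonneg_left h7 (by positivity)
      _ = _ := by ring
  have hf3 : (G ^ 2 * D) * (E x ^ 2 * ((1 + 1 / θ) * 2 * (3 * M ^ 2) * S))
      ≤ (if dep ε κ u x ≤ |t| ∧ |t| ≤ dep ε κ u x + 1 then
          ((1 + 1 / θ) * 2 * (3 * M ^ 2) * (S * (8 * Real.exp (2 * √2 * s3) * S)))
            * (ε * (qq u x + κ ^ 2)) * E x ^ 2 else 0) := by
    refine (mul_le_mul_of_nonneg_right hcut (by positivity)).trans ?_
    split_ifs
    · apply le_of_eq; ring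
    · simp
  have hfin := add_le_add hf1 (hf2.trans (mul_le_mul_of_nonneg_right hf3 hJ0.le))
  rw [← add_mul] at hfin
  exact hfin

/-- Second conclusion. -/
lemma second_le (hu : Sol u) (h1 : ∀ x, |u x| < 1) (hε : 0 < ε) (hκ : 0 < κ) {μ θ C2 : ℝ}
    (hμ : 0 < μ) (hθ1 : θ ≤ 1 / 8) (hC2 : 0 ≤ C2)
    (hgs : 0 < gs (phi u) x)
    (hJ : ∀ t, |t| ≤ dep ε κ u x + 1 → |jj u x t - 1| ≤ θ)
    {E : R3 → ℝ} (hE : ContDiff ℝ 1 E)
    (hcore : ∀ t, |t| ≤ dep ε κ u x + 1 →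
      esq (cdx u (fun z => E z.1 * prf ε κ u z.1 z.2) (x, t)) / jj u x t
      ≤ (1 + μ) * gs E x * prf ε κ u x t ^ 2
        + (if dep ε κ u x ≤ |t| ∧ |t| ≤ dep ε κ u x + 1 then
          C2 * (ε * (qq u x + κ ^ 2)) * E x ^ 2 else 0))
    {χ : R3 → ℝ} (hχ : Continuous χ) (hχ01 : ∀ y, 0 ≤ χ y ∧ χ y ≤ 1) :
    ∫ t, χ (xt u x t) * (esq (cdx u (fun z => E z.1 * prf ε κ u z.1 z.2) (x, t)) / jj u x t)
      ≤ (1 + μ) * gs E x * (∫ t, χ (xt u x t) * prf ε κ u x t ^ 2)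
        + 2 * (C2 * (ε * (qq u x + κ ^ 2)) * E x ^ 2) := by
  have hq0 := qq_nonneg hu h1 x
  have hgE : 0 ≤ gs E x := gs_nonneg _ _
  set τ := dep ε κ u x with hτd
  set Q : ℝ := C2 * (ε * (qq u x + κ ^ 2)) * E x ^ 2 with hQ
  have hQ0 : 0 ≤ Q := by positivity
  set I1 : ℝ → ℝ := (Set.Icc τ (τ + 1)).indicator (fun _ => Q) with hI1
  set I2 : ℝ → ℝ := (Set.Icc (-(τ + 1)) (-τ)).indicator (fun _ => Q) with hI2
  have hI1n : ∀ t, 0 ≤ I1 t := fun t => Set.indicator_nonneg (fun _ _ => hQ0) t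
  have hI2n : ∀ t, 0 ≤ I2 t := fun t => Set.indicator_nonneg (fun _ _ => hQ0) t
  have hI1i : Integrable I1 := by
    rw [hI1, integrable_indicator_iff measurableSet_Icc]
    exact continuous_const.continuousOn.integrableOn_compact isCompact_Icc
  have hI2i : Integrable I2 := by
    rw [hI2, integrable_indicator_iff measurableSet_Icc]
    exact continuous_const.continuousOn.integrableOn_compact isCompact_Icc
  have hI1v : ∫ t, I1 t = Q := by
    rw [hI1, integral_indicator measurableSet_Icc, setIntegral_const, Measure.real,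
      Real.volume_Icc]
    simp
  have hI2v : ∫ t, I2 t = Q := by
    rw [hI2, integral_indicator measurableSet_Icc, setIntegral_const, Measure.real,
      Real.volume_Icc]
    simp
  have hind : ∀ t, (if τ ≤ |t| ∧ |t| ≤ τ + 1 then Q else 0) ≤ I1 t + I2 t := by
    intro t
    split_ifs with h
    · rcases le_or_gt 0 t with h6 | h6
      · rw [abs_of_nonneg h6] at h
        have : I1 t = Q := by
          rw [hI1]; exact Set.indicator_of_mem (Set.mem_Icc.mpr h) _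
        linarith [hI2n t]
      · rw [abs_of_neg h6] at h
        have : I2 t = Q := by
          rw [hI2]
          exact Set.indicator_of_mem (Set.mem_Icc.mpr ⟨by linarith [h.2], by linarith [h.1]⟩) _
        linarith [hI1n t]
    · linarith [hI1n t, hI2n t]
  have hz0 : esq (0 : R3) = 0 := by unfold esq; simp
  have hpt : ∀ t, χ (xt u x t) * (esq (cdx u (fun z => E z.1 * prf ε κ u z.1 z.2) (x, t))
      / jj u x t)
      ≤ (1 + μ) * gs E x * (χ (xt u x t) * prf ε κ u x t ^ 2) + (I1 t + I2 t) := by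
    intro t
    obtain ⟨hc0, hc1⟩ := hχ01 (xt u x t)
    have hp0 : 0 ≤ (1 + μ) * gs E x * (χ (xt u x t) * prf ε κ u x t ^ 2) := by positivity
    rcases le_or_gt (|t|) (τ + 1) with ht | ht
    · have h2 := (hcore t ht).trans (add_le_add le_rfl (hind t))
      calc _ ≤ χ (xt u x t) * ((1 + μ) * gs E x * prf ε κ u x t ^ 2 + (I1 t + I2 t)) :=
            mul_le_mul_of_nonneg_left h2 hc0
        _ = (1 + μ) * gs E x * (χ (xt u x t) * prf ε κ u x t ^ 2)
            + χ (xt u x t) * (I1 t + I2 t) := by ring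
        _ ≤ _ := by
            have : χ (xt u x t) * (I1 t + I2 t) ≤ 1 * (I1 t + I2 t) :=
              mul_le_mul_of_nonneg_right hc1 (by linarith [hI1n t, hI2n t])
            linarith
    · rw [cdx_zero hu h1 hε hκ hE hgs ht, hz0, zero_div, mul_zero]
      linarith [hI1n t, hI2n t]
  have hnn : ∀ t, 0 ≤ χ (xt u x t) * (esq (cdx u (fun z => E z.1 * prf ε κ u z.1 z.2) (x, t))
      / jj u x t) := by
    intro t
    obtain ⟨hc0, hc1⟩ := hχ01 (xt u x t)
    rcases le_or_gt (|t|) (τ + 1) with ht | ht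
    · have hJ2 := abs_le.mp (hJ t ht)
      have hJ0 : 0 < jj u x t := by linarith
      exact mul_nonneg hc0 (div_nonneg (esq_nonneg _) hJ0.le)
    · rw [cdx_zero hu h1 hε hκ hE hgs ht, hz0, zero_div, mul_zero]
  have hint := integrable_chi_prf hχ ε κ u x
  calc ∫ t, χ (xt u x t) * (esq (cdx u (fun z => E z.1 * prf ε κ u z.1 z.2) (x, t)) / jj u x t)
      ≤ ∫ t, ((1 + μ) * gs E x * (χ (xt u x t) * prf ε κ u x t ^ 2) + (I1 t + I2 t)) := by
        apply integral_mono_of_nonneg (Eventually.of_forall hnn)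
        · exact (hint.const_mul _).add (hI1i.add hI2i)
        · exact Eventually.of_forall hpt
    _ = (1 + μ) * gs E x * (∫ t, χ (xt u x t) * prf ε κ u x t ^ 2) + 2 * Q := by
        have hI12 : Integrable (fun t => I1 t + I2 t) := hI1i.add hI2i
        rw [integral_add (hint.const_mul _) hI12, integral_const_mul,
          integral_add hI1i hI2i, hI1v, hI2v]
        ring

/-- Third conclusion. -/
lemma third_le (hu : Sol u) (h1 : ∀ x, |u x| < 1) (hε : 0 < ε) (hκ : 0 < κ) {s3 M S b : ℝ}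
    (hM1 : 1 ≤ M) (hS : ∀ t, |deriv th t| ≤ S)
    (hb0 : 0 ≤ b) (hb15 : 15 * b ≤ 1 / 8) (hgs : 0 < gs (phi u) x) (hx : |phi u x| ≤ s3)
    (hdep : ∀ j, |pd j (dep ε κ u) x| ≤ M)
    (hEc : ∀ i j, |t * (hh u x * pt u i j x - aa u i j x)| ≤ b)
    {E : R3 → ℝ} (hE : ContDiff ℝ 1 E) :
    √(esq (cdx u (fun z => (E z.1 * prf ε κ u z.1 z.2) ^ 2) (x, t)))
      ≤ 4 * |E x| * √(gs E x) * prf ε κ u x t ^ 2
        + (if dep ε κ u x ≤ |t| ∧ |t| ≤ dep ε κ u x + 1 then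
          8 * M * (8 * Real.exp (2 * √2 * s3) * S) * (ε * (qq u x + κ ^ 2)) * E x ^ 2 else 0) := by
  have hS0 : 0 ≤ S := (abs_nonneg _).trans (hS 0)
  have hq0 := qq_nonneg hu h1 x
  have hgE : 0 ≤ gs E x := gs_nonneg _ _
  set a := prf ε κ u x t with ha
  have ha0 : 0 ≤ a := prf_nonneg _ _ _ _ _
  have ha1 : a ≤ g1 (phi u x + t) := prf_le _ _ _ _ _
  set G := g1 (phi u x + t) with hG
  have hg1 : 0 ≤ G := (g1_pos (phi u x + t)).le
  set D := |deriv th (|t| - dep ε κ u x + 1)| with hD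
  have hD0 : 0 ≤ D := abs_nonneg _
  have e1 : esq (cdx u (fun z => (E z.1 * prf ε κ u z.1 z.2) ^ 2) (x, t))
      = (2 * (E x * a)) ^ 2 * esq (cdx u (fun z => E z.1 * prf ε κ u z.1 z.2) (x, t)) := by
    unfold esq
    simp_rw [cdx_sq_eq hu h1 hε hκ hE x t, mul_pow]
    rw [← Finset.mul_sum]
  have h2 := cdx_sq_le hu h1 hε hκ hE hgs (by linarith : (0:ℝ) ≤ M) hb0 (by linarith) one_pos
    hEc hdep
  have e2 : (E x * G * -(deriv th (|t| - dep ε κ u x + 1))) ^ 2 = (|E x| * G * D) ^ 2 := by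
    rw [mul_pow, mul_pow, mul_pow, mul_pow, neg_sq, sq_abs, hD, sq_abs]
  rw [e2] at h2
  have hsg : 0 ≤ √(gs E x) := Real.sqrt_nonneg _
  have hs : √(gs E x) ^ 2 = gs E x := Real.sq_sqrt hgE
  have h3 : esq (cdx u (fun z => E z.1 * prf ε κ u z.1 z.2) (x, t))
      ≤ (2 * a * √(gs E x) + 4 * M * (|E x| * G * D)) ^ 2 := by
    refine h2.trans ?_
    have hP : 0 ≤ |E x| * G * D := by positivity
    have e3 : (2 * a * √(gs E x) + 4 * M * (|E x| * G * D)) ^ 2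
        = 4 * (gs E x * a ^ 2) + 16 * (M ^ 2 * (|E x| * G * D) ^ 2)
          + 16 * M * (a * √(gs E x) * (|E x| * G * D)) := by
      have e4 : ∀ r g : ℝ, r ^ 2 = g → (2 * a * r + 4 * M * (|E x| * G * D)) ^ 2
        = 4 * (g * a ^ 2) + 16 * (M ^ 2 * (|E x| * G * D) ^ 2)
          + 16 * M * (a * r * (|E x| * G * D)) := by
        intro r g h; rw [← h]; ring
      exact e4 _ _ hs
    rw [e3]
    have h4 : 0 ≤ 16 * M * (a * √(gs E x) * (|E x| * G * D)) := by positivity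
    have h5 : (1 + 1) * (1 + 15 * b) * gs E x * a ^ 2 ≤ 4 * (gs E x * a ^ 2) := by
      have h6 : 0 ≤ gs E x * a ^ 2 := by positivity
      calc _ = ((1 + 1) * (1 + 15 * b)) * (gs E x * a ^ 2) := by ring
        _ ≤ 4 * (gs E x * a ^ 2) := mul_le_mul_of_nonneg_right (by linarith) h6
    have h6 : (1 + 1 / 1) * (1 + 15 * b) * (3 * M ^ 2) * (|E x| * G * D) ^ 2
        ≤ 16 * (M ^ 2 * (|E x| * G * D) ^ 2) := by
      have h7 : 0 ≤ M ^ 2 * (|E x| * G * D) ^ 2 := by positivity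
      calc _ = (6 * (1 + 15 * b)) * (M ^ 2 * (|E x| * G * D) ^ 2) := by ring
        _ ≤ 16 * (M ^ 2 * (|E x| * G * D) ^ 2) := mul_le_mul_of_nonneg_right (by linarith) h7
    linarith
  rw [e1]
  have h4 : √((2 * (E x * a)) ^ 2 * esq (cdx u (fun z => E z.1 * prf ε κ u z.1 z.2) (x, t)))
      ≤ (2 * (|E x| * a)) * (2 * a * √(gs E x) + 4 * M * (|E x| * G * D)) := by
    have e4 : (2 * (E x * a)) ^ 2 = (2 * (|E x| * a)) ^ 2 := by
      rw [mul_pow, mul_pow, mul_pow, mul_pow, sq_abs]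
    rw [Real.sqrt_le_left (by positivity), e4, mul_pow (2 * (|E x| * a))]
    exact mul_le_mul_of_nonneg_left h3 (by positivity)
  refine h4.trans ?_
  have hcut : G ^ 2 * D ≤ _ := cut_le hu h1 hε hκ hS hx t
  have e5 : (2 * (|E x| * a)) * (2 * a * √(gs E x) + 4 * M * (|E x| * G * D))
      = 4 * |E x| * √(gs E x) * a ^ 2 + (8 * M * |E x| ^ 2 * (G * D)) * a := by
    ring
  rw [e5, sq_abs]
  apply add_le_add le_rfl
  calc (8 * M * E x ^ 2 * (G * D)) * a ≤ (8 * M * E x ^ 2 * (G * D)) * G :=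
        mul_le_mul_of_nonneg_left ha1 (by positivity)
    _ = 8 * M * E x ^ 2 * (G ^ 2 * D) := by ring
    _ ≤ 8 * M * E x ^ 2 * (if dep ε κ u x ≤ |t| ∧ |t| ≤ dep ε κ u x + 1 then
          8 * Real.exp (2 * √2 * s3) * S * (ε * (qq u x + κ ^ 2)) else 0) :=
        mul_le_mul_of_nonneg_left hcut (by positivity)
    _ ≤ _ := by
        split_ifs
        · apply le_of_eq; ring
        · simp

theorem cdx_main : StCDX' := by
  intro s3 μ hs3 hμ
  obtain ⟨M, hM1, hM⟩ := exists_geo_bound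
  obtain ⟨S, hS1, hS⟩ := exists_th_bound
  have hS0 : 0 ≤ S := by linarith
  obtain ⟨θ, hθ, hθμ, hθ1⟩ : ∃ θ : ℝ, 0 < θ ∧ 8 * θ ≤ μ ∧ θ ≤ 1 / 8 := by
    have hm0 : 0 < min μ 1 := lt_min hμ one_pos
    exact ⟨min μ 1 / 8, by positivity, by linarith [min_le_left μ 1], by linarith [min_le_right μ 1]⟩
  set ρ : ℝ := θ / (45 * M) with hρd
  have hρ : 0 < ρ := by positivity
  have hρM : 45 * (M * ρ) = θ := by rw [hρd]; field_simp
  have hρ1 : ρ ≤ 1 := by
    have : ρ ≤ M * ρ := by nlinarith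
    linarith
  set C2 : ℝ := (1 + 1 / θ) * 2 * (3 * M ^ 2) * (S * (8 * Real.exp (2 * √2 * s3) * S)) with hC2
  have hC20 : 0 ≤ C2 := by positivity
  set C3 : ℝ := 8 * M * (8 * Real.exp (2 * √2 * s3) * S) with hC3
  have hC30 : 0 ≤ C3 := by positivity
  refine ⟨4 + 2 * C2 + C3, by positivity, fun ε hε => ?_⟩
  obtain ⟨δ1, hδ1, hτ⟩ := tau_small hρ hε
  refine ⟨min δ1 (1 / 2), by positivity, fun κ hκ u hu h1 => ?_⟩
  -- common facts at good points
  have good : ∀ x, qq u x ≤ min δ1 (1 / 2) → 0 < gs (phi u) x ∧ 1 / 2 < rr u x ∧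
      (∀ j, |pd j (dep ε κ u) x| ≤ M) ∧ ∀ t, |t| ≤ dep ε κ u x + 1 →
        |jj u x t - 1| ≤ θ ∧ ∀ i j, |t * (hh u x * pt u i j x - aa u i j x)| ≤ 3 * M * ρ := by
    intro x hq
    have hq0 := qq_nonneg hu h1 x
    have hq1 : qq u x ≤ δ1 := hq.trans (min_le_left _ _)
    have hq2 : qq u x ≤ 1 / 2 := hq.trans (min_le_right _ _)
    have hr : 1 / 2 < rr u x := half_lt_rr (by linarith)
    have hgs : 0 < gs (phi u) x := by
      have h3 : rr u x ^ 2 = gs (phi u) x := wn_sq _ _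
      rw [← h3]; positivity
    obtain ⟨hq', hg⟩ := hM u hu h1 x
    obtain ⟨hH, hK, hA, -⟩ := hg (by linarith)
    refine ⟨hgs, hr, fun j => abs_pd_dep_le hu h1 hε hκ (by linarith) j (hq' j), fun t ht => ?_⟩
    have h2 : |t| * √(qq u x) ≤ ρ := by
      refine le_trans (mul_le_mul_of_nonneg_right ht (Real.sqrt_nonneg _)) ?_
      exact hτ _ κ hq0 hq1 hκ
    have h3 := tube_close hM1 hρ.le hρ1 hH hK hA hq0 (by linarith) (sum_nu_sq hgs) h2
    refine ⟨h3.1.trans ?_, h3.2⟩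
    have : 2 * M * ρ = 2 / 45 * (45 * (M * ρ)) := by ring
    rw [this, hρM]; linarith
  have hb0 : 0 ≤ 3 * M * ρ := by positivity
  have hb15 : 15 * (3 * M * ρ) = θ := by rw [← hρM]; ring
  refine ⟨fun x hx hq t ht => ?_, fun E hE χ hχ hχ01 x hx hq => ?_, fun E hE x hx hq t => ?_⟩
  · obtain ⟨-, hr, -, hJ⟩ := good x hq
    have := abs_le.mp (hJ t ht).1
    exact ⟨hr, by linarith, by linarith⟩
  · obtain ⟨hgs, hr, hdep, hJ⟩ := good x hq
    have hq0 := qq_nonneg hu h1 x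
    refine (second_le hu h1 hε hκ hμ hθ1 hC20 hgs (fun t ht => (hJ t ht).1) hE (fun t ht =>
      core_le hu h1 hε hκ hM1 hS hθ hθμ hθ1 hb0 hb15 hgs hx hdep (hJ t ht).1 (hJ t ht).2 hE)
      hχ hχ01).trans (add_le_add le_rfl ?_)
    have h9 : (4 + 2 * C2 + C3) * ε * (qq u x + κ ^ 2) * E x ^ 2
        = 2 * (C2 * (ε * (qq u x + κ ^ 2)) * E x ^ 2)
          + (4 + C3) * (ε * (qq u x + κ ^ 2) * E x ^ 2) := by ring
    rw [h9]
    have h10 : 0 ≤ (4 + C3) * (ε * (qq u x + κ ^ 2) * E x ^ 2) := by positivity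
    linarith
  · obtain ⟨hgs, hr, hdep, hJ⟩ := good x hq
    have hq0 := qq_nonneg hu h1 x
    have hgE : 0 ≤ gs E x := gs_nonneg _ _
    rcases le_or_gt (|t|) (dep ε κ u x + 1) with ht | ht
    · refine (third_le hu h1 hε hκ hM1 hS hb0 (by linarith) hgs hx hdep (hJ t ht).2 hE).trans
        (add_le_add ?_ ?_)
      · apply mul_le_mul_of_nonneg_right _ (sq_nonneg _)
        apply mul_le_mul_of_nonneg_right _ (Real.sqrt_nonneg _)
        apply mul_le_mul_of_nonneg_right _ (abs_nonneg _)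
        linarith
      · split_ifs
        · have e7 : (4 + 2 * C2 + C3) * ε * (qq u x + κ ^ 2) * E x ^ 2
              = C3 * (ε * (qq u x + κ ^ 2)) * E x ^ 2
                + (4 + 2 * C2) * (ε * (qq u x + κ ^ 2) * E x ^ 2) := by ring
          rw [e7]
          have : 0 ≤ (4 + 2 * C2) * (ε * (qq u x + κ ^ 2) * E x ^ 2) := by positivity
          linarith
        · exact le_rfl
    · have h2 := cdx_zero hu h1 hε hκ hE hgs ht
      have e1 : cdx u (fun z => (E z.1 * prf ε κ u z.1 z.2) ^ 2) (x, t) = 0 := by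
        funext i
        rw [cdx_sq_eq hu h1 hε hκ hE x t, h2]; simp
      have hz0 : esq (0 : R3) = 0 := by unfold esq; simp
      rw [e1, hz0, Real.sqrt_zero]
      have h3 : 0 ≤ (4 + 2 * C2 + C3) * |E x| * √(gs E x) * prf ε κ u x t ^ 2 := by positivity
      have h4 : (0:ℝ) ≤ (if dep ε κ u x ≤ |t| ∧ |t| ≤ dep ε κ u x + 1 then
        (4 + 2 * C2 + C3) * ε * (qq u x + κ ^ 2) * E x ^ 2 else 0) := by
        split_ifs <;> positivity
      linarith

end Vale.Agent.P134.H919
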