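import Vale.Agent.P134.LI.Stm2
import Vale.Agent.P134.H586.Gw
import Vale.Agent.P134.H283.Tang
import Vale.Agent.P134.H88.Reg

set_option linter.all false

/-! Pointwise geometric bounds in the notation of `LI/Defs`. -/

open MeasureTheory Filter Topology

namespace Vale.Agent.P134.H919

open Vale.Agent.P134 Vale.Agent.P134.SM Vale.Agent.P134.LI
open Vale.Agent.P134.H586 (ff_pos gs_phi defi_eq_qq qq_nonneg qq_le_one)

variable {u : R3 → ℝ} {x : R3}

lemma wn_phi (hu : Sol u) (h1 : ∀ x, |u x| < 1) (x : R3) : wn (phi u) x = wn u x / ff u x := by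
  have hf := ff_pos hu h1 x
  unfold wn
  rw [gs_phi hu h1, Real.sqrt_div (gs_nonneg u x), Real.sqrt_sq hf.le]

lemma nu_phi (hu : Sol u) (h1 : ∀ x, |u x| < 1) (i : Fin 3) : nu (phi u) i = nu u i := by
  funext x
  have hf := ff_pos hu h1 x
  unfold nu
  rw [wn_phi hu h1, H586.pd_phi hu h1, div_div_div_cancel_right₀ hf.ne']

lemma mc_phi (hu : Sol u) (h1 : ∀ x, |u x| < 1) : mc (phi u) = mc u := by
  funext x
  unfold mc
  simp_rw [nu_phi hu h1]

lemma ff_contDiff (hu : Sol u) (m : ℕ) : ContDiff ℝ m (ff u) := by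
  have := Sol.contDiff_nat hu m
  unfold ff
  exact (contDiff_const.sub (this.pow 2)).div_const _

lemma qq_contDiff (hu : Sol u) (h1 : ∀ x, |u x| < 1) (m : ℕ) : ContDiff ℝ m (qq u) := by
  unfold qq
  exact contDiff_const.sub (gs_contDiff (m := m) (by exact_mod_cast H88.phi_contDiff hu h1 (m + 1)))

lemma pd_ff (hu : Sol u) (j : Fin 3) (x : R3) : pd j (ff u) x = -(√2 * u x * pd j u x) := by
  have hd : DifferentiableAt ℝ u x := (hu.c2.differentiable (by norm_num)) x
  have e : ff u = fun y => (1 / √2) * (1 - u y ^ 2) := by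
    funext y; unfold ff; ring
  rw [e, pd_mul (f := fun _ => 1 / √2) (by fun_prop) (by fun_prop), pd_const,
    pd_sub (f := fun _ => (1:ℝ)) (by fun_prop) (by fun_prop), pd_const, pd_sq hd]
  have h2 : (√2 : ℝ) ^ 2 = 2 := Real.sq_sqrt (by norm_num)
  have h3 : (√2 : ℝ) ≠ 0 := by positivity
  field_simp
  rw [h2]; ring

lemma abs_pd_le_ff (hu : Sol u) (j : Fin 3) (x : R3) : |pd j u x| ≤ ff u x := by
  have h0 := hu.defi_nonneg x
  have h1 : pd j u x ^ 2 ≤ ∑ i, pd i u x ^ 2 :=
    Finset.single_le_sum (f := fun i => pd i u x ^ 2) (fun _ _ => sq_nonneg _) (Finset.mem_univ j)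
  have h2 : ff u x ^ 2 = psi u x ^ 2 / 2 := by
    unfold ff psi
    rw [div_pow, Real.sq_sqrt (by norm_num)]
  have h3 : 0 ≤ ff u x := by
    have := hu.psi_nonneg x
    unfold psi at this
    unfold ff
    positivity
  apply abs_le_of_sq_le_sq _ h3
  unfold defi at h0
  linarith

/-- `|∂ q| ≤ C q`. -/
lemma abs_pd_qq_le (hu : Sol u) (h1 : ∀ x, |u x| < 1) (j : Fin 3) (x : R3) :
    |pd j (qq u) x| ≤ (2 * H283.cH 3 2 + 3) * qq u x := by
  have hf := ff_pos hu h1 x
  have hq := qq_nonneg hu h1 x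
  have dff : DifferentiableAt ℝ (ff u) x := (ff_contDiff hu 1).differentiable (by norm_num) x
  have dqq : DifferentiableAt ℝ (qq u) x := (qq_contDiff hu h1 1).differentiable (by norm_num) x
  have e : defi u = fun y => ff u y ^ 2 * qq u y := by
    funext y; exact defi_eq_qq hu h1 y
  have h2 := H283.abs_pd_defi_le hu j x
  have h3 : pd j (defi u) x = 2 * ff u x * pd j (ff u) x * qq u x + ff u x ^ 2 * pd j (qq u) x := by
    rw [e, pd_mul (dff.fun_pow 2) dqq, pd_sq dff]; ring
  have h4 : |pd j (ff u) x| ≤ 3 / 2 * ff u x := by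
    rw [pd_ff hu, abs_neg, abs_mul, abs_mul, abs_of_pos (by positivity : (0:ℝ) < √2)]
    have h5 := (h1 x).le
    have h6 := abs_pd_le_ff hu j x
    have h7 := abs_nonneg (u x)
    have h8 : (√2 : ℝ) ≤ 3 / 2 := by
      rw [Real.sqrt_le_left (by norm_num)]; norm_num
    calc √2 * |u x| * |pd j u x| ≤ 3 / 2 * 1 * ff u x :=
          mul_le_mul (mul_le_mul h8 h5 h7 (by norm_num)) h6 (abs_nonneg _) (by norm_num)
      _ = 3 / 2 * ff u x := by ring
  have h5 : ff u x ^ 2 * |pd j (qq u) x| ≤ ff u x ^ 2 * ((2 * H283.cH 3 2 + 3) * qq u x) := by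
    calc ff u x ^ 2 * |pd j (qq u) x| = |ff u x ^ 2 * pd j (qq u) x| := by
          rw [abs_mul, abs_of_pos (by positivity : 0 < ff u x ^ 2)]
      _ = |pd j (defi u) x - 2 * ff u x * pd j (ff u) x * qq u x| := by rw [h3]; ring_nf
      _ ≤ |pd j (defi u) x| + |2 * ff u x * pd j (ff u) x * qq u x| := abs_sub _ _
      _ ≤ 2 * H283.cH 3 2 * defi u x + 2 * ff u x * (3 / 2 * ff u x) * qq u x := by
          refine add_le_add h2 ?_
          rw [abs_mul, abs_mul, abs_of_pos (by positivity : 0 < 2 * ff u x), abs_of_nonneg hq]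
          exact mul_le_mul_of_nonneg_right (mul_le_mul_of_nonneg_left h4 (by positivity)) hq
      _ = _ := by rw [defi_eq_qq hu h1 x]; ring
  exact le_of_mul_le_mul_left h5 (by positivity)

lemma sqrt_defi (hu : Sol u) (h1 : ∀ x, |u x| < 1) (x : R3) :
    √(defi u x) = ff u x * √(qq u x) := by
  rw [defi_eq_qq hu h1, Real.sqrt_mul (sq_nonneg _), Real.sqrt_sq (ff_pos hu h1 x).le]

lemma rr_sq (u : R3 → ℝ) (x : R3) : rr u x ^ 2 = 1 - qq u x := by
  unfold rr qq
  rw [wn_sq]; ring

lemma half_lt_rr (hq : qq u x < 3 / 4) : 1 / 2 < rr u x := by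
  have h := rr_sq u x
  have h0 : 0 ≤ rr u x := wn_nonneg _ _
  nlinarith

/-- All pointwise bounds at a good point, one universal constant. -/
theorem exists_geo_bound : ∃ M : ℝ, 1 ≤ M ∧ ∀ u : R3 → ℝ, Sol u → (∀ x, |u x| < 1) →
    ∀ x, (∀ j, |pd j (qq u) x| ≤ M * qq u x) ∧ (qq u x < 3 / 4 →
      |hh u x| ≤ M * qq u x ∧ |kk u x| ≤ M * qq u x ∧ (∀ i j, |aa u i j x| ≤ M * √(qq u x)) ∧
      a2 u x ≤ M * qq u x) := by
  obtain ⟨C, hC1, hC⟩ := H283.exists_nu_bound 3
  set c := H283.cH 3 2 with hc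
  have hc0 : 0 ≤ c := (H283.cH_pos 3 (K := 2) (by norm_num)).le
  set M : ℝ := 2 * c + 3 + 12 * c + 8 * C + 576 * C ^ 2 + 144 * c ^ 2 + 1 with hM
  have hMc : 0 ≤ M := by positivity
  refine ⟨M, by nlinarith [sq_nonneg C, sq_nonneg c], fun u hu h1 x => ⟨fun j => ?_, fun hq => ?_⟩⟩
  · refine (abs_pd_qq_le hu h1 j x).trans (mul_le_mul_of_nonneg_right ?_ (qq_nonneg hu h1 x))
    nlinarith [sq_nonneg C, sq_nonneg c]
  · have hq0 := qq_nonneg hu h1 x
    have hq1 := qq_le_one u x
    have hf := ff_pos hu h1 x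
    have hr := half_lt_rr hq
    have hr1 : rr u x = wn u x / ff u x := wn_phi hu h1 x
    have hw : wn u x = ff u x * rr u x := by rw [hr1]; field_simp
    have hgs : 0 < gs u x := by
      rw [← wn_sq, hw]; positivity
    set s := √(qq u x) with hs
    have hs0 : 0 ≤ s := Real.sqrt_nonneg _
    have hs2 : s ^ 2 = qq u x := Real.sq_sqrt hq0
    -- derivatives of ν
    have hν : ∀ i j, |pd j (nu (phi u) i) x| ≤ 2 * C * s := by
      intro i j
      rw [nu_phi hu h1]
      have h2 := hC u hu x hgs i j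
      rw [sqrt_defi hu h1, hw] at h2
      have h3 : ff u x * (rr u x * |pd j (nu u i) x|) ≤ ff u x * (C * s) := by
        calc _ = ff u x * rr u x * |pd j (nu u i) x| := by ring
          _ ≤ C * (ff u x * s) := h2
          _ = _ := by ring
      have h4 := le_of_mul_le_mul_left h3 hf
      have h5 : 1 / 2 * |pd j (nu u i) x| ≤ rr u x * |pd j (nu u i) x| :=
        mul_le_mul_of_nonneg_right hr.le (abs_nonneg _)
      linarith
    have hν1 : ∀ i, |nu (phi u) i x| ≤ 1 := by
      intro i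
      have hg : 0 < gs (phi u) x := by
        have := rr_sq u x
        have h3 : rr u x ^ 2 = gs (phi u) x := wn_sq _ _
        rw [← h3]; positivity
      have h2 := sum_nu_sq hg
      have h3 : nu (phi u) i x ^ 2 ≤ ∑ i, nu (phi u) i x ^ 2 :=
        Finset.single_le_sum (f := fun i => nu (phi u) i x ^ 2) (fun _ _ => sq_nonneg _)
          (Finset.mem_univ i)
      apply abs_le_of_sq_le_sq _ (by norm_num)
      rw [h2] at h3; linarith
    -- mean curvature
    have hH : |hh u x| ≤ 12 * c * qq u x := by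
      have h2 := H283.wn_sq_mc_le hu hgs
      rw [defi_eq_qq hu h1, hw] at h2
      have h3 : ff u x ^ 2 * (rr u x ^ 2 * |mc u x|) ≤ ff u x ^ 2 * (3 * c * qq u x) := by
        calc _ = (ff u x * rr u x) ^ 2 * |mc u x| := by ring
          _ ≤ _ := h2
          _ = _ := by push_cast; ring
      have h4 := le_of_mul_le_mul_left h3 (by positivity)
      have h5 : 1 / 4 * |mc u x| ≤ rr u x ^ 2 * |mc u x| :=
        mul_le_mul_of_nonneg_right (by nlinarith) (abs_nonneg _)
      have h6 : hh u x = mc u x := by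
        unfold hh; rw [mc_phi hu h1]
      rw [h6]; linarith
    have hA : ∀ i j, |aa u i j x| ≤ 8 * C * s := by
      intro i j
      unfold aa
      have h2 : |(∑ k, pd k (nu (phi u) i) x * nu (phi u) k x) * nu (phi u) j x|
          ≤ 6 * C * s := by
        rw [abs_mul]
        have h3 : |∑ k, pd k (nu (phi u) i) x * nu (phi u) k x| ≤ ∑ k : Fin 3, 2 * C * s := by
          refine (Finset.abs_sum_le_sum_abs _ _).trans (Finset.sum_le_sum fun k _ => ?_)
          rw [abs_mul]
          calc _ ≤ 2 * C * s * 1 := mul_le_mul (hν i k) (hν1 k) (abs_nonneg _) (by positivity)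
            _ = _ := mul_one _
        have h4 : ∑ k : Fin 3, 2 * C * s = 6 * C * s := by
          simp; ring
        rw [h4] at h3
        calc _ ≤ 6 * C * s * 1 := mul_le_mul h3 (hν1 j) (abs_nonneg _) (by positivity)
          _ = _ := mul_one _
      have h5 := abs_sub (pd j (nu (phi u) i) x)
        ((∑ k, pd k (nu (phi u) i) x * nu (phi u) k x) * nu (phi u) j x)
      have h6 := hν i j
      linarith
    have hA2 : a2 u x ≤ 576 * C ^ 2 * qq u x := by
      unfold a2
      have h2 : ∀ i j, aa u i j x ^ 2 ≤ 64 * C ^ 2 * qq u x := by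
        intro i j
        have h3 := hA i j
        have h4 : |aa u i j x| ^ 2 ≤ (8 * C * s) ^ 2 := pow_le_pow_left₀ (abs_nonneg _) h3 2
        rw [sq_abs] at h4
        rw [← hs2]; nlinarith
      calc ∑ i, ∑ j, aa u i j x ^ 2 ≤ ∑ i : Fin 3, ∑ j : Fin 3, 64 * C ^ 2 * qq u x :=
            Finset.sum_le_sum fun i _ => Finset.sum_le_sum fun j _ => h2 i j
        _ = _ := by simp; ring
    have hA20 : 0 ≤ a2 u x := Finset.sum_nonneg fun _ _ => Finset.sum_nonneg fun _ _ => sq_nonneg _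
    have hH2 : hh u x ^ 2 ≤ 144 * c ^ 2 * qq u x := by
      have h2 : |hh u x| ^ 2 ≤ (12 * c * qq u x) ^ 2 := pow_le_pow_left₀ (abs_nonneg _) hH 2
      rw [sq_abs] at h2
      have h3 : (12 * c * qq u x) ^ 2 = 144 * c ^ 2 * (qq u x * qq u x) := by ring
      have h4 : qq u x * qq u x ≤ qq u x * 1 := mul_le_mul_of_nonneg_left hq1 hq0
      rw [h3] at h2
      nlinarith [mul_le_mul_of_nonneg_left h4 (by positivity : 0 ≤ 144 * c ^ 2)]
    refine ⟨hH.trans (mul_le_mul_of_nonneg_right ?_ hq0), ?_, fun i j => (hA i j).trans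
      (mul_le_mul_of_nonneg_right ?_ hs0), hA2.trans (mul_le_mul_of_nonneg_right ?_ hq0)⟩
    · nlinarith [sq_nonneg C, sq_nonneg c]
    · unfold kk
      rw [abs_le]
      have h5 : 0 ≤ hh u x ^ 2 := sq_nonneg _
      have h6 : (144 * c ^ 2 + 576 * C ^ 2) * qq u x ≤ M * qq u x :=
        mul_le_mul_of_nonneg_right (by nlinarith [sq_nonneg C, sq_nonneg c]) hq0
      have h7 : 0 ≤ 144 * c ^ 2 * qq u x := by positivity
      have h8 : 0 ≤ 576 * C ^ 2 * qq u x := by positivity
      constructor <;> nlinarith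
    · nlinarith [sq_nonneg C, sq_nonneg c]
    · nlinarith [sq_nonneg C, sq_nonneg c]

end Vale.Agent.P134.H919
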